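import Vale.Agent.P330.H241.Defs
import Vale.Agent.P330.Brouwer

/-!
# Every generalized circuit has an assignment on a constant grid satisfying all gates
-/

namespace Vale.Agent.P330

namespace Gate

/-- clamp to `[0,1]` -/
noncomputable def cl (t : ℝ) : ℝ := max 0 (min 1 t)

theorem cl_mem (t : ℝ) : 0 ≤ cl t ∧ cl t ≤ 1 :=
  ⟨le_max_left _ _, max_le zero_le_one (min_le_left _ _)⟩

theorem continuous_cl : Continuous cl := by unfold cl; fun_prop

theorem cl_ge {t c : ℝ} (hc : c ≤ 1) (h : c ≤ t) : c ≤ cl t :=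
  (le_min hc h).trans (le_max_right _ _)

theorem cl_le {t c : ℝ} (hc : 0 ≤ c) (h : t ≤ c) : cl t ≤ c :=
  max_le hc ((min_le_right _ _).trans h)

theorem cl_eq {t : ℝ} (h0 : 0 ≤ t) (h1 : t ≤ 1) : cl t = t := by
  unfold cl; rw [min_eq_right h1, max_eq_right h0]

/-- continuous selection of the gate semantics: slope `k` for `less`, `s` for the logic gates -/
noncomputable def sel (k s : ℝ) (x : ℕ → ℝ) : Gate → ℝ
  | .const α _ => cl α
  | .scale α a _ => cl (α * x a)
  | .copy a _ => cl (x a)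
  | .add a b _ => cl (min (x a + x b) 1)
  | .sub a b _ => cl (max (x a - x b) 0)
  | .less a b _ => cl (1 / 2 + k * (x b - x a))
  | .not a _ => cl (1 / 2 + s * (1 / 2 - x a))
  | .or a b _ => cl (1 / 2 + s * (max (x a) (x b) - 1 / 2))
  | .and a b _ => cl (1 / 2 + s * (min (x a) (x b) - 1 / 2))

theorem sel_mem (k s : ℝ) (x : ℕ → ℝ) (g : Gate) : 0 ≤ g.sel k s x ∧ g.sel k s x ≤ 1 := by
  cases g <;> exact cl_mem _

theorem continuous_sel (k s : ℝ) (g : Gate) : Continuous fun x : ℕ → ℝ => g.sel k s x := by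
  cases g <;> simp only [sel] <;> refine continuous_cl.comp ?_ <;> fun_prop

end Gate

open Gate

/-- exact solutions of the continuous selection -/
theorem exists_fixed (G : GenCircuit) (k s : ℝ) :
    ∃ x : ℕ → ℝ, (∀ v, 0 ≤ x v ∧ x v ≤ 1) ∧ (∀ v, G.nodes ≤ v → x v = 0) ∧
      ∀ g ∈ G.gates, x g.out = g.sel k s x := by
  classical
  set ext : (Fin G.nodes → ℝ) → ℕ → ℝ := fun y v => if h : v < G.nodes then y ⟨v, h⟩ else 0
    with hext
  have hextc : Continuous ext := by
    refine continuous_pi fun v => ?_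
    by_cases h : v < G.nodes
    · simp only [hext, h, dite_true]; fun_prop
    · simp only [hext, h, dite_false]; fun_prop
  obtain ⟨y, hy, hfy⟩ := brouwer_unit (n := G.nodes)
    (fun y v => if h : ∃ g ∈ G.gates, g.out = v.1 then h.choose.sel k s (ext y) else 0)
    (by
      refine continuous_pi fun v => ?_
      by_cases h : ∃ g ∈ G.gates, g.out = v.1
      · simp only [h, dite_true]
        exact (continuous_sel k s _).comp hextc
      · simp only [h, dite_false]
        exact continuous_const)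
    (by
      intro x _ v
      by_cases h : ∃ g ∈ G.gates, g.out = v.1
      · simp only [h, dite_true]
        exact sel_mem k s _ _
      · simp only [h, dite_false]
        exact ⟨le_rfl, zero_le_one⟩)
  refine ⟨ext y, fun v => ?_, fun v hv => ?_, fun g hg => ?_⟩
  · by_cases h : v < G.nodes
    · simp only [hext, h, dite_true]; exact hy _
    · simp only [hext, h, dite_false]; exact ⟨le_rfl, zero_le_one⟩
  · simp only [hext, not_lt.2 hv, dite_false]
  · have hlt := G.out_lt g hg
    have h : ∃ g' ∈ G.gates, g'.out = ((⟨g.out, hlt⟩ : Fin G.nodes) : ℕ) := ⟨g, hg, rfl⟩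
    have h1 := congrFun hfy ⟨g.out, hlt⟩
    simp only [h, dite_true] at h1
    have h2 : h.choose = g :=
      List.inj_on_of_nodup_map G.out_nodup h.choose_spec.1 hg h.choose_spec.2
    rw [h2] at h1
    rw [h1]
    simp only [hext, hlt, dite_true]

section round

variable {ε η k s : ℝ} {x y : ℕ → ℝ}

theorem round_const (h1 : η ≤ ε) (hx1 : ∀ v, x v ≤ y v) (hx2 : ∀ v, y v - η ≤ x v)
    {z : ℕ} {α : ℚ} (hok : 0 ≤ α ∧ α ≤ 1)
    (hval : y z = (Gate.const α z).sel k s y) : (Gate.const α z).Sat ε x := by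
  simp only [sel, Sat] at hval hok ⊢
  rw [cl_eq (by exact_mod_cast hok.1) (by exact_mod_cast hok.2)] at hval
  rw [← hval, abs_le]
  constructor <;> linarith [hx1 z, hx2 z]

theorem round_scale (h1 : η ≤ ε) (hx1 : ∀ v, x v ≤ y v) (hx2 : ∀ v, y v - η ≤ x v)
    (hy : ∀ v, 0 ≤ y v ∧ y v ≤ 1) {z a : ℕ} {α : ℚ}
    (hok : 0 ≤ α ∧ α ≤ 1)
    (hval : y z = (Gate.scale α a z).sel k s y) : (Gate.scale α a z).Sat ε x := by
  simp only [sel, Sat] at hval hok ⊢
  have ha0 : (0 : ℝ) ≤ α := by exact_mod_cast hok.1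
  have ha1 : (α : ℝ) ≤ 1 := by exact_mod_cast hok.2
  rw [cl_eq (mul_nonneg ha0 (hy a).1) (by nlinarith [(hy a).1, (hy a).2])] at hval
  have h3 := hx1 z
  have h4 := hx2 z
  have h5 : (α : ℝ) * x a ≤ α * y a := mul_le_mul_of_nonneg_left (hx1 a) ha0
  have h6 : (α : ℝ) * (y a - x a) ≤ 1 * η :=
    mul_le_mul ha1 (by linarith [hx2 a]) (by linarith [hx1 a]) zero_le_one
  rw [abs_le]
  constructor <;> linarith

theorem round_copy (h1 : η ≤ ε) (hx1 : ∀ v, x v ≤ y v) (hx2 : ∀ v, y v - η ≤ x v)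
    (hy : ∀ v, 0 ≤ y v ∧ y v ≤ 1) {z a : ℕ}
    (hval : y z = (Gate.copy a z).sel k s y) : (Gate.copy a z).Sat ε x := by
  simp only [sel, Sat] at hval ⊢
  rw [cl_eq (hy a).1 (hy a).2] at hval
  rw [abs_le]
  constructor <;> linarith [hx1 z, hx2 z, hx1 a, hx2 a]

theorem round_add (hη : 0 < η) (h1 : 2 * η ≤ ε) (hx1 : ∀ v, x v ≤ y v)
    (hx2 : ∀ v, y v - η ≤ x v)
    (hy : ∀ v, 0 ≤ y v ∧ y v ≤ 1) {z a b : ℕ}
    (hval : y z = (Gate.add a b z).sel k s y) : (Gate.add a b z).Sat ε x := by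
  simp only [sel, Sat] at hval ⊢
  rw [cl_eq (le_min (add_nonneg (hy a).1 (hy b).1) zero_le_one) (min_le_right _ _)] at hval
  have h1' := hx1 z
  have h2' := hx2 z
  have h3' := hx1 a
  have h4' := hx2 a
  have h5' := hx1 b
  have h6' := hx2 b
  rw [abs_le]
  constructor
  · have : min (x a + x b) 1 ≤ min (y a + y b) 1 := min_le_min (by linarith) le_rfl
    linarith
  · have : min (y a + y b) 1 - 2 * η ≤ min (x a + x b) 1 := by
      refine le_min ?_ ?_
      · linarith [min_le_left (y a + y b) 1]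
      · linarith [min_le_right (y a + y b) 1]
    linarith

theorem round_sub (hη : 0 < η) (h1 : 2 * η ≤ ε) (hx1 : ∀ v, x v ≤ y v)
    (hx2 : ∀ v, y v - η ≤ x v)
    (hy : ∀ v, 0 ≤ y v ∧ y v ≤ 1) {z a b : ℕ}
    (hval : y z = (Gate.sub a b z).sel k s y) : (Gate.sub a b z).Sat ε x := by
  simp only [sel, Sat] at hval ⊢
  have hm : max (y a - y b) 0 ≤ 1 := max_le (by linarith [(hy a).2, (hy b).1]) zero_le_one
  rw [cl_eq (le_max_right _ _) hm] at hval
  have h1' := hx1 z
  have h2' := hx2 z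
  have h3' := hx1 a
  have h4' := hx2 a
  have h5' := hx1 b
  have h6' := hx2 b
  rw [abs_le]
  constructor
  · have : max (x a - x b) 0 ≤ max (y a - y b) 0 + η := by
      refine max_le ?_ ?_
      · linarith [le_max_left (y a - y b) 0]
      · linarith [le_max_right (y a - y b) 0]
    linarith
  · have : max (y a - y b) 0 ≤ max (x a - x b) 0 + η := by
      refine max_le ?_ ?_
      · linarith [le_max_left (x a - x b) 0]
      · linarith [le_max_right (x a - x b) 0]
    linarith

theorem round_less (hη : 0 < η) (h1 : η ≤ ε / 4) (hk : k * (ε / 2) = 1 / 2) (hk0 : 0 < k)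
    (hx1 : ∀ v, x v ≤ y v) (hx2 : ∀ v, y v - η ≤ x v) {z a b : ℕ}
    (hval : y z = (Gate.less a b z).sel k s y) : (Gate.less a b z).Sat ε x := by
  simp only [sel, Sat] at hval ⊢
  have h1' := hx1 z
  have h2' := hx2 z
  have h3' := hx1 a
  have h4' := hx2 a
  have h5' := hx1 b
  have h6' := hx2 b
  constructor
  · intro h
    have h7 : ε / 2 ≤ y b - y a := by linarith
    have h9 := mul_le_mul_of_nonneg_left h7 hk0.le
    have h8 : 1 ≤ y z := by
      rw [hval]
      exact cl_ge le_rfl (by linarith)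
    linarith
  · intro h
    have h7 : y b - y a ≤ - (ε / 2) := by linarith
    have h9 := mul_le_mul_of_nonneg_left h7 hk0.le
    have h8 : y z ≤ 0 := by
      rw [hval]
      exact cl_le le_rfl (by linarith)
    linarith

/-- the upper reading of a logic gate -/
theorem logic_hi (hs0 : 0 < s) (hε : η ≤ ε) (hsd : s * (1 / 2 - ε - η) = 1 / 2 - ε + η)
    {t : ℝ} (h : 1 / 2 - ε - η ≤ t) : 1 - ε + η ≤ cl (1 / 2 + s * t) := by
  have h9 := mul_le_mul_of_nonneg_left h hs0.le
  exact cl_ge (by linarith) (by linarith)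

/-- the lower reading of a logic gate -/
theorem logic_lo (hs0 : 0 < s) (hε : η ≤ ε) (hsd : s * (1 / 2 - ε - η) = 1 / 2 - ε + η)
    {t : ℝ} (h : t ≤ - (1 / 2 - ε - η)) : cl (1 / 2 + s * t) ≤ ε - η := by
  have h9 := mul_le_mul_of_nonneg_left h hs0.le
  exact cl_le (by linarith) (by linarith)

theorem round_not (hη : 0 < η) (h1 : η ≤ ε) (hs0 : 0 < s)
    (hsd : s * (1 / 2 - ε - η) = 1 / 2 - ε + η)
    (hx1 : ∀ v, x v ≤ y v) (hx2 : ∀ v, y v - η ≤ x v) {z a : ℕ}
    (hval : y z = (Gate.not a z).sel k s y) : (Gate.not a z).Sat ε x := by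
  simp only [sel, Sat] at hval ⊢
  have h1' := hx1 z
  have h2' := hx2 z
  have h3' := hx1 a
  have h4' := hx2 a
  constructor
  · intro h
    have := logic_hi hs0 h1 hsd (t := 1 / 2 - y a) (by linarith)
    linarith
  · intro h
    have := logic_lo hs0 h1 hsd (t := 1 / 2 - y a) (by linarith)
    linarith

theorem round_or (hη : 0 < η) (h1 : η ≤ ε) (hs0 : 0 < s)
    (hsd : s * (1 / 2 - ε - η) = 1 / 2 - ε + η)
    (hx1 : ∀ v, x v ≤ y v) (hx2 : ∀ v, y v - η ≤ x v) {z a b : ℕ}
    (hval : y z = (Gate.or a b z).sel k s y) : (Gate.or a b z).Sat ε x := by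
  simp only [sel, Sat] at hval ⊢
  have h1' := hx1 z
  have h2' := hx2 z
  have h3' := hx1 a
  have h4' := hx2 a
  have h5' := hx1 b
  have h6' := hx2 b
  constructor
  · intro h
    have h7 : 1 - ε ≤ max (y a) (y b) := by
      rcases h with h | h
      · linarith [le_max_left (y a) (y b)]
      · linarith [le_max_right (y a) (y b)]
    have := logic_hi hs0 h1 hsd (t := max (y a) (y b) - 1 / 2) (by linarith)
    linarith
  · rintro ⟨ha, hb⟩
    have h7 : max (y a) (y b) ≤ ε + η := max_le (by linarith) (by linarith)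
    have := logic_lo hs0 h1 hsd (t := max (y a) (y b) - 1 / 2) (by linarith)
    linarith

theorem round_and (hη : 0 < η) (h1 : η ≤ ε) (hs0 : 0 < s)
    (hsd : s * (1 / 2 - ε - η) = 1 / 2 - ε + η)
    (hx1 : ∀ v, x v ≤ y v) (hx2 : ∀ v, y v - η ≤ x v) {z a b : ℕ}
    (hval : y z = (Gate.and a b z).sel k s y) : (Gate.and a b z).Sat ε x := by
  simp only [sel, Sat] at hval ⊢
  have h1' := hx1 z
  have h2' := hx2 z
  have h3' := hx1 a
  have h4' := hx2 a
  have h5' := hx1 b
  have h6' := hx2 b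
  constructor
  · rintro ⟨ha, hb⟩
    have h7 : 1 - ε ≤ min (y a) (y b) := le_min (by linarith) (by linarith)
    have := logic_hi hs0 h1 hsd (t := min (y a) (y b) - 1 / 2) (by linarith)
    linarith
  · intro h
    have h7 : min (y a) (y b) ≤ ε + η := by
      rcases h with h | h
      · linarith [min_le_left (y a) (y b)]
      · linarith [min_le_right (y a) (y b)]
    have := logic_lo hs0 h1 hsd (t := min (y a) (y b) - 1 / 2) (by linarith)
    linarith

end round

/-- **Existence**, `ε < 1/2`: for `K ≥ 1/η`, `η ≤ ε/4`, `η ≤ (1/2-ε)/2` the grid `{0,1/K,…,1}`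
contains an assignment satisfying all gates. -/
theorem exists_sat_grid {ε η : ℝ} (hη : 0 < η) (h1 : η ≤ ε / 4)
    (h2 : η ≤ (1 / 2 - ε) / 2) {K : ℕ} (hK : 1 / η ≤ K) (G : GenCircuit) :
    ∃ x : ℕ → ℕ, (∀ v, x v ≤ K) ∧ (∀ v, G.nodes ≤ v → x v = 0) ∧
      ∀ g ∈ G.gates, g.Sat ε (fun v => (x v : ℝ) / K) := by
  have hε : 0 < ε := by linarith
  have hK0 : (0 : ℝ) < K := lt_of_lt_of_le (by positivity) hK
  have hKη : 1 / (K : ℝ) ≤ η := by
    rw [div_le_iff₀ hK0]; rw [div_le_iff₀ hη] at hK; linarith [mul_comm (K : ℝ) η]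
  have hd : 0 < 1 / 2 - ε - η := by linarith
  obtain ⟨s, hs0, hsd⟩ : ∃ s : ℝ, 0 < s ∧ s * (1 / 2 - ε - η) = 1 / 2 - ε + η :=
    ⟨(1 / 2 - ε + η) / (1 / 2 - ε - η), by apply div_pos <;> linarith,
      div_mul_cancel₀ _ hd.ne'⟩
  obtain ⟨k, hk0, hkε⟩ : ∃ k : ℝ, 0 < k ∧ k * (ε / 2) = 1 / 2 :=
    ⟨1 / ε, by positivity, by field_simp⟩
  obtain ⟨y, hy, hy0, hg⟩ := exists_fixed G k s
  refine ⟨fun v => ⌊y v * K⌋₊, fun v => ?_, fun v hv => ?_, ?_⟩
  · have : y v * K ≤ K := by nlinarith [(hy v).2]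
    exact Nat.floor_le_of_le this
  · simp [hy0 v hv]
  have hx1 : ∀ v, (fun v => (⌊y v * K⌋₊ : ℝ) / K) v ≤ y v := fun v => by
    rw [div_le_iff₀ hK0]
    exact Nat.floor_le (mul_nonneg (hy v).1 hK0.le)
  have hx2 : ∀ v, y v - η ≤ (fun v => (⌊y v * K⌋₊ : ℝ) / K) v := fun v => by
    have h3 : y v * K < ⌊y v * K⌋₊ + 1 := Nat.lt_floor_add_one _
    have h4 : y v < ((⌊y v * K⌋₊ : ℝ) + 1) / K := by rw [lt_div_iff₀ hK0]; exact h3
    rw [add_div] at h4
    simp only
    linarith
  intro g hgT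
  have hval := hg g hgT
  have hok := G.params_mem g hgT
  cases g with
  | const α z => exact round_const (by linarith) hx1 hx2 (hok α (by simp [Gate.params])) hval
  | scale α a z => exact round_scale (by linarith) hx1 hx2 hy (hok α (by simp [Gate.params])) hval
  | copy a z => exact round_copy (by linarith) hx1 hx2 hy hval
  | add a b z => exact round_add hη (by linarith) hx1 hx2 hy hval
  | sub a b z => exact round_sub hη (by linarith) hx1 hx2 hy hval
  | less a b z => exact round_less hη h1 hkε hk0 hx1 hx2 hval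
  | not a z => exact round_not hη (by linarith) hs0 hsd hx1 hx2 hval
  | or a b z => exact round_or hη (by linarith) hs0 hsd hx1 hx2 hval
  | and a b z => exact round_and hη (by linarith) hs0 hsd hx1 hx2 hval

/-- **Existence**, every `ε > 0`: there is a constant `K` (depending on `ε` only) such that every
generalized circuit has an assignment with values in `{0,1/K,…,1}` which `ε`-satisfies ALL
gates. -/
theorem exists_sat (ε : ℝ) (hε : 0 < ε) : ∃ K : ℕ, 0 < K ∧ ∀ G : GenCircuit,
    ∃ x : ℕ → ℕ, (∀ v, x v ≤ K) ∧ ∀ g ∈ G.gates, g.Sat ε (fun v => (x v : ℝ) / K) := by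
  rcases lt_or_ge ε (1 / 2) with h | h
  · set η := min (ε / 4) ((1 / 2 - ε) / 2) with hη
    have hη0 : 0 < η := lt_min (by linarith) (by linarith)
    obtain ⟨K, hK⟩ := exists_nat_ge (1 / η)
    refine ⟨K, ?_, fun G => ?_⟩
    · have : (0 : ℝ) < K := lt_of_lt_of_le (by positivity) hK
      exact_mod_cast this
    · obtain ⟨x, hx, _, hs⟩ := exists_sat_grid hη0 (min_le_left _ _) (min_le_right _ _) hK G
      exact ⟨x, hx, hs⟩
  · refine ⟨2, two_pos, fun G => ⟨fun _ => 1, fun _ => by norm_num, ?_⟩⟩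
    intro g hg
    have hok := G.params_mem g hg
    cases g with
    | const α z =>
      have hok := hok α (by simp [Gate.params])
      simp only [Sat]
      have ha0 : (0 : ℝ) ≤ α := by exact_mod_cast hok.1
      have ha1 : (α : ℝ) ≤ 1 := by exact_mod_cast hok.2
      rw [abs_le]; push_cast; constructor <;> linarith
    | scale α a z =>
      have hok := hok α (by simp [Gate.params])
      simp only [Sat]
      have ha0 : (0 : ℝ) ≤ α := by exact_mod_cast hok.1
      have ha1 : (α : ℝ) ≤ 1 := by exact_mod_cast hok.2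
      rw [abs_le]; push_cast; constructor <;> linarith
    | copy a z => simp only [Sat, sub_self, abs_zero]; linarith
    | add a b z =>
      simp only [Sat]; push_cast
      norm_num
      linarith
    | sub a b z =>
      simp only [Sat]; push_cast
      norm_num
      linarith
    | less a b z =>
      simp only [Sat]; push_cast
      exact ⟨fun h1 => by linarith, fun h1 => by linarith⟩
    | not a z =>
      simp only [Sat]; push_cast
      exact ⟨fun _ => by linarith, fun _ => by linarith⟩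
    | or a b z =>
      simp only [Sat]; push_cast
      exact ⟨fun _ => by linarith, fun _ => by linarith⟩
    | and a b z =>
      simp only [Sat]; push_cast
      exact ⟨fun _ => by linarith, fun _ => by linarith⟩

/-! ### Acceptable assignments -/

theorem val_map_range (n : ℕ) (f : ℕ → ℚ) {v : ℕ} (hv : v < n) :
    Vale.Agent.P330.val ((List.range n).map f) v = (f v : ℝ) := by
  simp [Vale.Agent.P330.val, List.getD_eq_getElem?_getD, hv]

theorem sat_congr {ε : ℝ} {x y : ℕ → ℝ} (g : Gate) (h0 : x g.out = y g.out)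
    (h : ∀ a ∈ g.ins, x a = y a) : g.Sat ε x ↔ g.Sat ε y := by
  cases g <;> simp_all [Gate.Sat, Gate.out, Gate.ins]

theorem numSat_all {ε : ℝ} {G : GenCircuit} {x : List ℚ}
    (h : ∀ g ∈ G.gates, g.Sat ε (Vale.Agent.P330.val x)) : numSat ε G x = G.gates.length := by
  have hnd : G.gates.Nodup := List.Nodup.of_map _ G.out_nodup
  classical
  have e : {g : Gate | g ∈ G.gates ∧ g.Sat ε (Vale.Agent.P330.val x)} =
      (G.gates.toFinset : Set Gate) := by
    ext g
    simp only [Set.mem_ofPred_eq, List.coe_toFinset]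
    exact ⟨fun hg => hg.1, fun hg => ⟨hg, h g hg⟩⟩
  unfold numSat
  rw [e, Set.ncard_coe_finset, List.toFinset_card_of_nodup hnd]

theorem length_pairW (u v : List Bool) : (pairW u v).length = 2 * u.length + 1 + v.length := by
  unfold pairW
  simp [List.length_flatMap]
  ring

theorem listW_length_le {α : Type} (c : α → List Bool) (C : ℕ) (l : List α)
    (h : ∀ a ∈ l, (c a).length ≤ C) : (listW c l).length ≤ (2 * C + 1) * l.length := by
  induction l with
  | nil => simp [listW]
  | cons a l ih =>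
    have h1 := h a (by simp)
    have h2 := ih (fun b hb => h b (by simp [hb]))
    simp only [listW, length_pairW, List.length_cons]
    nlinarith

/-- There is an assignment with all gates satisfied and with values in `{0,1/K,…,1}`. -/
theorem exists_assignment (ε : ℝ) (hε : 0 < ε) : ∃ K : ℕ, 0 < K ∧ ∀ G : GenCircuit,
    ∃ x : List ℚ, IsAssignment G x ∧ (∀ r ∈ x, ∃ i ≤ K, r = (i : ℚ) / K) ∧
      ∀ g ∈ G.gates, g.Sat ε (Vale.Agent.P330.val x) := by
  obtain ⟨K, hK, h⟩ := exists_sat ε hε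
  refine ⟨K, hK, fun G => ?_⟩
  obtain ⟨x, hx, hs⟩ := h G
  have hKq : (0 : ℚ) < K := by exact_mod_cast hK
  refine ⟨(List.range G.nodes).map fun v => (x v : ℚ) / K, ⟨by simp, ?_⟩, ?_, ?_⟩
  · intro r hr
    obtain ⟨v, _, rfl⟩ := List.mem_map.1 hr
    have : (x v : ℚ) ≤ K := by exact_mod_cast hx v
    exact ⟨by positivity, by rw [div_le_one hKq]; exact this⟩
  · intro r hr
    obtain ⟨v, _, rfl⟩ := List.mem_map.1 hr
    exact ⟨x v, hx v, rfl⟩
  · intro g hg
    rw [sat_congr (y := fun v => (x v : ℝ) / K) g]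
    · exact hs g hg
    · rw [val_map_range _ _ (G.out_lt g hg)]; push_cast; rfl
    · intro a ha
      rw [val_map_range _ _ (G.ins_lt g hg a ha)]; push_cast; rfl

/-- **EX**: for every `ε > 0` there is a polynomial `p` such that every generalized circuit has
an acceptable assignment, for every `δ ≥ 0` and every polynomial `q ≥ p`. -/
theorem exists_acceptable (ε : ℝ) (hε : 0 < ε) : ∃ C : ℕ, ∀ (G : GenCircuit) (δ : ℝ)
    (q : Polynomial ℕ), 0 ≤ δ → (∀ M, C * M ≤ q.eval M) →
    ∃ x, Acceptable ε δ q G x ∧ ∀ g ∈ G.gates, g.Sat ε (Vale.Agent.P330.val x) := by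
  obtain ⟨K, hK, h⟩ := exists_assignment ε hε
  -- all possible values have codes of bounded length
  obtain ⟨C, hC⟩ : ∃ C : ℕ, ∀ i ≤ K, (ratW ((i : ℚ) / K)).length ≤ C :=
    ⟨(Finset.range (K + 1)).sup fun i : ℕ => (ratW ((i : ℚ) / K)).length, fun i hi =>
      Finset.le_sup (f := fun i : ℕ => (ratW ((i : ℚ) / K)).length)
        (Finset.mem_range.2 (by omega))⟩
  refine ⟨2 * C + 1, fun G δ q hδ hq => ?_⟩
  obtain ⟨x, hx, hv, hs⟩ := h G
  refine ⟨x, ⟨hx, ?_, ?_⟩, hs⟩
  · refine le_trans ?_ (hq _)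
    have h1 : (listW ratW x).length ≤ (2 * C + 1) * x.length := by
      refine listW_length_le _ _ _ fun r hr => ?_
      obtain ⟨i, hi, rfl⟩ := hv r hr
      exact hC i hi
    refine h1.trans (Nat.mul_le_mul_left _ ?_)
    rw [hx.1]
    unfold circuitW
    rw [length_pairW, List.length_replicate]
    omega
  · rw [numSat_all hs]
    have : (0 : ℝ) ≤ G.gates.length := by positivity
    nlinarith

end Vale.Agent.P330
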