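import Vale.Agent.P330.H241.Defs

/-!
The subexponential form of the PCP-for-PPAD conjecture: the reduction gets the instance `I` of
End-of-Line together with a number `t` in unary, and has to work when the length `N` of the code
of `I` is at most `(log₂ t) ^ k`.  With `t = 2 ^ ⌈N ^ (1 / k)⌉` this is a reduction of size and
time `2 ^ O(N ^ (1 / k))`.
-/

namespace Vale.Agent.P330

/-- The code of an instance of End-of-Line padded by `1 ^ t`: the code of the instance, and the
number `t` in unary. -/
def padW (q : EndOfLine × ℕ) : List Bool := pairW (eolW q.1) (List.replicate q.2 true)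

/-- The code of a padded instance and an assignment. -/
def padAsgW (q : (EndOfLine × ℕ) × List ℚ) : List Bool := pairW (padW q.1) (listW ratW q.2)

/-- The polynomial time algorithms `R`, `D` are as in the conjecture, with the constants `ε`, `δ`
and the polynomial `p`, on the padded instances `(I, 1 ^ t)` with `N ≤ (log₂ t) ^ k`, where `N` is
the length of the code of `I`: `R (I, t)` has an acceptable assignment, and `D` maps every
acceptable assignment of `R (I, t)` to a solution of `I`.  Both run in time polynomial in the length
of their input, that is in `N + t` and in `N + t + |x|`. -/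
def IsPaddedReduction (k : ℕ) (ε δ : ℝ) (p : Polynomial ℕ) (R : EndOfLine × ℕ → GenCircuit)
    (D : (EndOfLine × ℕ) × List ℚ → List Bool) : Prop :=
  PolyTime padW circuitW R ∧ PolyTime padAsgW (fun v => v) D ∧
  ∀ (I : EndOfLine) (t : ℕ), (eolW I).length ≤ Nat.log 2 t ^ k →
    (∃ x, Acceptable ε δ p (R (I, t)) x) ∧
      ∀ x, Acceptable ε δ p (R (I, t)) x → I.IsSolution (D ((I, t), x))

/-- The PCP-for-PPAD conjecture with the exponent `k`: for some constants `ε`, `δ` there are
reductions of size and time `2 ^ O(N ^ (1 / k))`. -/
def PaddedPCP (k : ℕ) : Prop :=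
  ∃ (ε δ : ℚ) (p : Polynomial ℕ) (R : EndOfLine × ℕ → GenCircuit)
    (D : (EndOfLine × ℕ) × List ℚ → List Bool),
    0 < ε ∧ ε < 1 ∧ 0 < δ ∧ δ < 1 ∧ IsPaddedReduction k ε δ p R D

/-- The subexponential PCP-for-PPAD statement. -/
def SubexpPCP : Prop := ∀ k : ℕ, PaddedPCP k

end Vale.Agent.P330
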