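import Vale.Agent.P330.H241.Defs

/-!
# Gates without output node, over an arbitrary type of nodes; readings
-/

namespace Vale.Agent.P330

/-- Reading of an analog value: `true` means `≥ 1 - ε`, `false` means `≤ ε`. -/
def Rd (ε t : ℝ) : Bool → Prop
  | true => 1 - ε ≤ t
  | false => t ≤ ε

theorem Rd.unique {ε t : ℝ} (hε : ε < 1 / 2) {b c : Bool} (h : Rd ε t b) (h' : Rd ε t c) :
    b = c := by
  cases b <;> cases c <;> simp only [Rd] at h h' <;> first | rfl | (exfalso; linarith)

/-- Operations (gates without output node) reading nodes of type `W`. -/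
inductive Op (W : Type) where
  | const (α : ℚ)
  | scale (α : ℚ) (a : W)
  | copy (a : W)
  | add (a b : W)
  | sub (a b : W)
  | less (a b : W)
  | not (a : W)
  | or (a b : W)
  | and (a b : W)

namespace Op

variable {W W' : Type}

/-- The nodes which are read. -/
def ins : Op W → List W
  | const _ => []
  | scale _ a => [a]
  | copy a => [a]
  | add a b => [a, b]
  | sub a b => [a, b]
  | less a b => [a, b]
  | not a => [a]
  | or a b => [a, b]
  | and a b => [a, b]

/-- The rational parameter, if there is one. -/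
def params : Op W → List ℚ
  | const α => [α]
  | scale α _ => [α]
  | _ => []

/-- The operation is `ε`-satisfied by the values `x` of the nodes and the output value `t`. -/
def Sat (ε : ℝ) (x : W → ℝ) (t : ℝ) : Op W → Prop
  | const α => |t - α| ≤ ε
  | scale α a => |t - α * x a| ≤ ε
  | copy a => |t - x a| ≤ ε
  | add a b => |t - min (x a + x b) 1| ≤ ε
  | sub a b => |t - max (x a - x b) 0| ≤ ε
  | less a b => (x a < x b - ε → 1 - ε ≤ t) ∧ (x b + ε < x a → t ≤ ε)
  | not a => (x a ≤ ε → 1 - ε ≤ t) ∧ (1 - ε ≤ x a → t ≤ ε)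
  | or a b => (1 - ε ≤ x a ∨ 1 - ε ≤ x b → 1 - ε ≤ t) ∧ (x a ≤ ε ∧ x b ≤ ε → t ≤ ε)
  | and a b => (1 - ε ≤ x a ∧ 1 - ε ≤ x b → 1 - ε ≤ t) ∧ (x a ≤ ε ∨ x b ≤ ε → t ≤ ε)

/-- The gate realising the operation, with the output node `z`, for a numbering `e` of the
nodes. -/
def toGate (e : W → ℕ) (z : ℕ) : Op W → Gate
  | const α => .const α z
  | scale α a => .scale α (e a) z
  | copy a => .copy (e a) z
  | add a b => .add (e a) (e b) z
  | sub a b => .sub (e a) (e b) z
  | less a b => .less (e a) (e b) z
  | not a => .not (e a) z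
  | or a b => .or (e a) (e b) z
  | and a b => .and (e a) (e b) z

@[simp] theorem out_toGate (e : W → ℕ) (z : ℕ) (o : Op W) : (o.toGate e z).out = z := by
  cases o <;> rfl

@[simp] theorem ins_toGate (e : W → ℕ) (z : ℕ) (o : Op W) :
    (o.toGate e z).ins = o.ins.map e := by
  cases o <;> rfl

@[simp] theorem params_toGate (e : W → ℕ) (z : ℕ) (o : Op W) :
    (o.toGate e z).params = o.params := by
  cases o <;> rfl

theorem sat_toGate (ε : ℝ) (e : W → ℕ) (z : ℕ) (o : Op W) (x : ℕ → ℝ) :
    (o.toGate e z).Sat ε x ↔ o.Sat ε (fun w => x (e w)) (x z) := by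
  cases o <;> rfl

/-- Renaming of the nodes. -/
def map (r : W → W') : Op W → Op W'
  | const α => const α
  | scale α a => scale α (r a)
  | copy a => copy (r a)
  | add a b => add (r a) (r b)
  | sub a b => sub (r a) (r b)
  | less a b => less (r a) (r b)
  | not a => not (r a)
  | or a b => or (r a) (r b)
  | and a b => and (r a) (r b)

theorem sat_map (ε : ℝ) (r : W → W') (x : W' → ℝ) (t : ℝ) (o : Op W) :
    (o.map r).Sat ε x t ↔ o.Sat ε (fun w => x (r w)) t := by
  cases o <;> rfl

@[simp] theorem ins_map (r : W → W') (o : Op W) : (o.map r).ins = o.ins.map r := by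
  cases o <;> rfl

@[simp] theorem params_map (r : W → W') (o : Op W) : (o.map r).params = o.params := by
  cases o <;> rfl

theorem toGate_map (r : W → W') (e : W' → ℕ) (z : ℕ) (o : Op W) :
    (o.map r).toGate e z = o.toGate (fun w => e (r w)) z := by
  cases o <;> rfl

end Op

/-- A program over the inputs `ι`: the operation number `k` writes the internal node
`Sum.inr k` and reads inputs and internal nodes with smaller numbers; the last internal node is
the output. -/
structure Prog (ι : Type) where
  /-- the operations -/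
  ops : List (Op (ι ⊕ ℕ))
  pos : 0 < ops.length
  below : ∀ (k : ℕ) (o : Op (ι ⊕ ℕ)), ops[k]? = some o → ∀ j, Sum.inr j ∈ o.ins → j < k
  params_mem : ∀ o ∈ ops, ∀ α ∈ o.params, 0 ≤ α ∧ α ≤ 1

/-- All operations of the program are satisfied. -/
def Prog.Sat {ι : Type} (p : Prog ι) (ε : ℝ) (x : ι ⊕ ℕ → ℝ) : Prop :=
  ∀ (k : ℕ) (o : Op (ι ⊕ ℕ)), p.ops[k]? = some o → o.Sat ε x (x (Sum.inr k))

/-- The output value. -/
def Prog.res {ι : Type} (p : Prog ι) (x : ι ⊕ ℕ → ℝ) : ℝ := x (Sum.inr (p.ops.length - 1))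

end Vale.Agent.P330
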