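import Vale.Agent.P330.Op

/-!
# The universal Kleene gadget

A program over the inputs `ι` is a list of operations over `ι ⊕ ℕ`; the operation number `k` writes
the internal node `Sum.inr k`.
`kg f` : a program for `f : (ι → Bool) → Bool` whose last node reads `c` as soon as every
completion of the digital inputs gives the value `c` (`kg_spec`).
-/

namespace Vale.Agent.P330

/-- The operation is a logic operation. -/
def Op.IsLogic {W : Type} : Op W → Prop
  | .const α => α = 0 ∨ α = 1
  | .not _ => True
  | .and _ _ => True
  | .or _ _ => True
  | _ => False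

theorem Op.IsLogic.params {W : Type} {o : Op W} (h : o.IsLogic) :
    ∀ α ∈ o.params, 0 ≤ α ∧ α ≤ 1 := by
  cases o <;> simp only [Op.IsLogic, Op.params] at h ⊢ <;> try simp
  rcases h with rfl | rfl <;> norm_num

section rdlemmas

variable {W : Type} {ε t : ℝ} {x : W → ℝ} {a b : W}

theorem Op.rd_one (h : (Op.const 1 : Op W).Sat ε x t) : Rd ε t true := by
  simp only [Op.Sat, Rd] at h ⊢
  rw [abs_le] at h; push_cast at h; linarith [h.1]

theorem Op.rd_zero (h : (Op.const 0 : Op W).Sat ε x t) : Rd ε t false := by
  simp only [Op.Sat, Rd] at h ⊢
  rw [abs_le] at h; push_cast at h; linarith [h.2]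

theorem Op.rd_not (h : (Op.not a).Sat ε x t) {c : Bool} (hc : Rd ε (x a) c) :
    Rd ε t (!c) := by
  cases c
  · exact h.1 hc
  · exact h.2 hc

theorem Op.rd_and_true (h : (Op.and a b).Sat ε x t) (ha : Rd ε (x a) true)
    (hb : Rd ε (x b) true) : Rd ε t true := h.1 ⟨ha, hb⟩

theorem Op.rd_and_false (h : (Op.and a b).Sat ε x t)
    (hab : Rd ε (x a) false ∨ Rd ε (x b) false) : Rd ε t false := h.2 hab

theorem Op.rd_or_true (h : (Op.or a b).Sat ε x t)
    (hab : Rd ε (x a) true ∨ Rd ε (x b) true) : Rd ε t true := h.1 hab

theorem Op.rd_or_false (h : (Op.or a b).Sat ε x t) (ha : Rd ε (x a) false)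
    (hb : Rd ε (x b) false) : Rd ε t false := h.2 ⟨ha, hb⟩

end rdlemmas

/-- Boolean formulas over the variables `ι`. -/
inductive Form (ι : Type) where
  | tt
  | ff
  | var (i : ι)
  | not (a : Form ι)
  | and (a b : Form ι)
  | or (a b : Form ι)

namespace Form

variable {ι : Type}

/-- The Kleene readings of a formula, given the readings of the variables. -/
def rd (P : ι → Bool → Prop) : Form ι → Bool → Prop
  | tt, b => b = true
  | ff, b => b = false
  | var i, b => P i b
  | not a, b => a.rd P (!b)
  | and a c, true => a.rd P true ∧ c.rd P true
  | and a c, false => a.rd P false ∨ c.rd P false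
  | or a c, true => a.rd P true ∨ c.rd P true
  | or a c, false => a.rd P false ∧ c.rd P false

/-- The number of operations of the compiled formula; a variable costs two negations, so that the
last operation is always an internal node. -/
def size : Form ι → ℕ
  | tt => 1
  | ff => 1
  | var _ => 2
  | not a => a.size + 1
  | and a c => a.size + c.size + 1
  | or a c => a.size + c.size + 1

theorem size_pos (F : Form ι) : 0 < F.size := by cases F <;> simp [size]

/-- The program of a formula, with the internal nodes starting at `n`. -/
def comp : Form ι → ℕ → List (Op (ι ⊕ ℕ))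
  | tt, _ => [.const 1]
  | ff, _ => [.const 0]
  | var i, n => [.not (Sum.inl i), .not (Sum.inr n)]
  | not a, n => a.comp n ++ [.not (Sum.inr (n + a.size - 1))]
  | and a c, n => a.comp n ++ c.comp (n + a.size) ++
      [.and (Sum.inr (n + a.size - 1)) (Sum.inr (n + a.size + c.size - 1))]
  | or a c, n => a.comp n ++ c.comp (n + a.size) ++
      [.or (Sum.inr (n + a.size - 1)) (Sum.inr (n + a.size + c.size - 1))]

@[simp] theorem length_comp (F : Form ι) (n : ℕ) : (F.comp n).length = F.size := by
  induction F generalizing n with
  | tt => rfl
  | ff => rfl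
  | var i => rfl
  | not a ih => simp [comp, size, ih]
  | and a c iha ihc => simp [comp, size, iha, ihc]; ring
  | or a c iha ihc => simp [comp, size, iha, ihc]; ring

/-- The internal nodes read by the operation number `k` have numbers `< n + k`. -/
theorem below_comp (F : Form ι) (n : ℕ) (k : ℕ) (o : Op (ι ⊕ ℕ)) (h : (F.comp n)[k]? = some o)
    (j : ℕ) (hj : Sum.inr j ∈ o.ins) : n ≤ j ∧ j < n + k := by
  induction F generalizing n k with
  | tt =>
    simp only [comp] at h
    rcases k with _ | k
    · simp at h; subst h; simp [Op.ins] at hj
    · simp at h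
  | ff =>
    simp only [comp] at h
    rcases k with _ | k
    · simp at h; subst h; simp [Op.ins] at hj
    · simp at h
  | var i =>
    simp only [comp] at h
    rcases k with _ | _ | k
    · simp at h; subst h; simp [Op.ins] at hj
    · simp at h; subst h; simp [Op.ins] at hj; omega
    · simp at h
  | not a ih =>
    simp only [comp] at h
    rcases lt_or_ge k a.size with hk | hk
    · rw [List.getElem?_append_left (by simpa using hk)] at h
      exact ih n k h
    · rw [List.getElem?_append_right (by simpa using hk), length_comp] at h
      have hk0 : k - a.size = 0 := by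
        by_contra h0
        rw [List.getElem?_eq_none (by simp; omega)] at h
        exact absurd h (by simp)
      rw [hk0] at h
      simp at h; subst h
      simp [Op.ins] at hj
      have := a.size_pos
      omega
  | and a c iha ihc =>
    simp only [comp, List.append_assoc] at h
    have h1 := a.size_pos
    have h2 := c.size_pos
    rcases lt_or_ge k a.size with hk | hk
    · rw [List.getElem?_append_left (by simpa using hk)] at h
      exact iha n k h
    · rw [List.getElem?_append_right (by simpa using hk), length_comp] at h
      rcases lt_or_ge (k - a.size) c.size with hk' | hk'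
      · rw [List.getElem?_append_left (by simpa using hk')] at h
        have := ihc (n + a.size) (k - a.size) h
        omega
      · rw [List.getElem?_append_right (by simpa using hk'), length_comp] at h
        have hk0 : k - a.size - c.size = 0 := by
          by_contra h0
          rw [List.getElem?_eq_none (by simp; omega)] at h
          exact absurd h (by simp)
        rw [hk0] at h
        simp at h; subst h
        simp [Op.ins] at hj
        omega
  | or a c iha ihc =>
    simp only [comp, List.append_assoc] at h
    have h1 := a.size_pos
    have h2 := c.size_pos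
    rcases lt_or_ge k a.size with hk | hk
    · rw [List.getElem?_append_left (by simpa using hk)] at h
      exact iha n k h
    · rw [List.getElem?_append_right (by simpa using hk), length_comp] at h
      rcases lt_or_ge (k - a.size) c.size with hk' | hk'
      · rw [List.getElem?_append_left (by simpa using hk')] at h
        have := ihc (n + a.size) (k - a.size) h
        omega
      · rw [List.getElem?_append_right (by simpa using hk'), length_comp] at h
        have hk0 : k - a.size - c.size = 0 := by
          by_contra h0
          rw [List.getElem?_eq_none (by simp; omega)] at h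
          exact absurd h (by simp)
        rw [hk0] at h
        simp at h; subst h
        simp [Op.ins] at hj
        omega

/-- Soundness of the compiled program. -/
theorem rd_comp {ε : ℝ} (x : ι ⊕ ℕ → ℝ) (F : Form ι) (n : ℕ)
    (h : ∀ (k : ℕ) (o : Op (ι ⊕ ℕ)), (F.comp n)[k]? = some o → o.Sat ε x (x (Sum.inr (n + k)))) (b : Bool)
    (hb : F.rd (fun i c => Rd ε (x (Sum.inl i)) c) b) :
    Rd ε (x (Sum.inr (n + F.size - 1))) b := by
  induction F generalizing n b with
  | tt =>
    simp only [rd] at hb; subst hb
    exact Op.rd_one (h 0 (.const 1) rfl)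
  | ff =>
    simp only [rd] at hb; subst hb
    exact Op.rd_zero (h 0 (.const 0) rfl)
  | var i =>
    have h0 := h 0 (.not (Sum.inl i)) rfl
    have h1 := h 1 (.not (Sum.inr n)) rfl
    have h2 := Op.rd_not h1 (Op.rd_not h0 (c := b) hb)
    rw [Bool.not_not] at h2
    simpa [size] using h2
  | not a ih =>
    simp only [rd] at hb
    have h0 := ih n (fun k o hk => h k o (by
      simp only [comp]
      have : k < a.size := by
        have := (List.getElem?_eq_some_iff.1 hk).1
        simpa using this
      rw [List.getElem?_append_left (by simpa using this)]; exact hk)) _ hb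
    have h1 := h a.size (.not (Sum.inr (n + a.size - 1))) (by
      simp only [comp]
      rw [List.getElem?_append_right (by simp)]
      simp)
    have h2 := Op.rd_not h1 h0
    rw [Bool.not_not] at h2
    simpa [size, Nat.add_assoc] using h2
  | and a c iha ihc =>
    have h1 := a.size_pos
    have h2 := c.size_pos
    have ha := iha n (fun k o hk => h k o (by
      simp only [comp, List.append_assoc]
      have : k < a.size := by
        have := (List.getElem?_eq_some_iff.1 hk).1
        simpa using this
      rw [List.getElem?_append_left (by simpa using this)]; exact hk))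
    have hc := ihc (n + a.size) (fun k o hk => by
      have := h (a.size + k) o (by
        simp only [comp, List.append_assoc]
        have : k < c.size := by
          have := (List.getElem?_eq_some_iff.1 hk).1
          simpa using this
        rw [List.getElem?_append_right (by simp), List.getElem?_append_left (by simpa using this)]
        simpa using hk)
      rwa [← Nat.add_assoc] at this)
    have h3 := h (a.size + c.size)
      (.and (Sum.inr (n + a.size - 1)) (Sum.inr (n + a.size + c.size - 1))) (by
      simp only [comp, List.append_assoc]
      rw [List.getElem?_append_right (by simp), List.getElem?_append_right (by simp)]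
      simp)
    have e : n + (and a c).size - 1 = n + (a.size + c.size) := by simp only [size]; omega
    rw [e]
    cases b
    · simp only [rd] at hb
      exact Op.rd_and_false h3 (hb.imp (ha false) (hc false))
    · simp only [rd] at hb
      exact Op.rd_and_true h3 (ha true hb.1) (hc true hb.2)
  | or a c iha ihc =>
    have h1 := a.size_pos
    have h2 := c.size_pos
    have ha := iha n (fun k o hk => h k o (by
      simp only [comp, List.append_assoc]
      have : k < a.size := by
        have := (List.getElem?_eq_some_iff.1 hk).1
        simpa using this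
      rw [List.getElem?_append_left (by simpa using this)]; exact hk))
    have hc := ihc (n + a.size) (fun k o hk => by
      have := h (a.size + k) o (by
        simp only [comp, List.append_assoc]
        have : k < c.size := by
          have := (List.getElem?_eq_some_iff.1 hk).1
          simpa using this
        rw [List.getElem?_append_right (by simp), List.getElem?_append_left (by simpa using this)]
        simpa using hk)
      rwa [← Nat.add_assoc] at this)
    have h3 := h (a.size + c.size)
      (.or (Sum.inr (n + a.size - 1)) (Sum.inr (n + a.size + c.size - 1))) (by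
      simp only [comp, List.append_assoc]
      rw [List.getElem?_append_right (by simp), List.getElem?_append_right (by simp)]
      simp)
    have e : n + (or a c).size - 1 = n + (a.size + c.size) := by simp only [size]; omega
    rw [e]
    cases b
    · simp only [rd] at hb
      exact Op.rd_or_false h3 (ha false hb.1) (hc false hb.2)
    · simp only [rd] at hb
      exact Op.rd_or_true h3 (hb.imp (ha true) (hc true))

/-- conjunction of a list -/
def conj : List (Form ι) → Form ι
  | [] => tt
  | a :: l => and a (conj l)

/-- disjunction of a list -/
def disj : List (Form ι) → Form ι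
  | [] => ff
  | a :: l => or a (disj l)

theorem rd_conj_true (P : ι → Bool → Prop) (l : List (Form ι)) (h : ∀ a ∈ l, a.rd P true) :
    (conj l).rd P true := by
  induction l with
  | nil => rfl
  | cons a l ih => exact ⟨h a (by simp), ih fun b hb => h b (by simp [hb])⟩

theorem rd_conj_false (P : ι → Bool → Prop) (l : List (Form ι)) (a : Form ι) (ha : a ∈ l)
    (h : a.rd P false) : (conj l).rd P false := by
  induction l with
  | nil => simp at ha
  | cons b l ih =>
    rcases List.mem_cons.1 ha with rfl | ha
    · exact Or.inl h
    · exact Or.inr (ih ha)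

theorem rd_disj_true (P : ι → Bool → Prop) (l : List (Form ι)) (a : Form ι) (ha : a ∈ l)
    (h : a.rd P true) : (disj l).rd P true := by
  induction l with
  | nil => simp at ha
  | cons b l ih =>
    rcases List.mem_cons.1 ha with rfl | ha
    · exact Or.inl h
    · exact Or.inr (ih ha)

theorem rd_disj_false (P : ι → Bool → Prop) (l : List (Form ι)) (h : ∀ a ∈ l, a.rd P false) :
    (disj l).rd P false := by
  induction l with
  | nil => rfl
  | cons a l ih => exact ⟨h a (by simp), ih fun b hb => h b (by simp [hb])⟩

/-- The literal of a partial assignment at a variable. -/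
def lit (t : ι → Option Bool) (i : ι) : Form ι :=
  match t i with
  | none => tt
  | some true => var i
  | some false => not (var i)

variable [Fintype ι] [DecidableEq ι]

/-- The term of a partial assignment. -/
noncomputable def term (t : ι → Option Bool) : Form ι := conj (Finset.univ.toList.map (lit t))

/-- `b` extends the partial assignment `t`. -/
def Ext (t : ι → Option Bool) (b : ι → Bool) : Prop := ∀ i, ∀ c, t i = some c → b i = c

open Classical in
/-- The disjunction of all the implicants of `f`. -/
noncomputable def dnf (f : (ι → Bool) → Bool) : Form ι :=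
  disj (((Finset.univ : Finset (ι → Option Bool)).filter
    fun t => ∀ b, Ext t b → f b = true).toList.map term)

/-- The universal property of the disjunction of all implicants. -/
theorem rd_dnf (P : ι → Bool → Prop) (f : (ι → Bool) → Bool) (c : Bool)
    (h : ∀ b : ι → Bool, (∀ i d, P i d → b i = d) → f b = c)
    (hne : ∀ i, ¬ (P i true ∧ P i false)) :
    (dnf f).rd P c := by
  classical
  cases c
  · refine rd_disj_false _ _ ?_
    intro a ha
    obtain ⟨t, ht, rfl⟩ := List.mem_map.1 ha
    simp only [Finset.mem_toList, Finset.mem_filter, Finset.mem_univ, true_and] at ht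
    -- some literal is false
    by_contra hcon
    -- build a completion compatible with both
    have key : ∀ i c, t i = some c → ¬ P i (!c) := by
      intro i c hc hP
      apply hcon
      refine rd_conj_false P _ (lit t i) (List.mem_map.2 ⟨i, by simp, rfl⟩) ?_
      cases c
      · simp only [lit, hc, rd]; simpa using hP
      · simp only [lit, hc, rd]; simpa using hP
    set b : ι → Bool := fun i =>
      match t i with
      | some c => c
      | none => if P i true then true else false with hb
    have h1 : f b = true := ht b (fun i c hc => by simp [hb, hc])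
    have h2 : f b = false := h b (fun i d hd => by
      cases hti : t i with
      | some c =>
        have h3 := key i c hti
        have : b i = c := by simp [hb, hti]
        rw [this]
        cases c <;> cases d <;> simp_all
      | none =>
        have h4 : b i = if P i true then true else false := by simp [hb, hti]
        rw [h4]
        cases d
        · have : ¬ P i true := fun h5 => hne i ⟨h5, hd⟩
          simp [this]
        · simp [hd])
    rw [h1] at h2; exact absurd h2 (by simp)
  · set t : ι → Option Bool := fun i =>
      if P i true then some true else if P i false then some false else none with ht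
    refine rd_disj_true _ _ (term t) (List.mem_map.2 ⟨t, ?_, rfl⟩) ?_
    · simp only [Finset.mem_toList, Finset.mem_filter, Finset.mem_univ, true_and]
      intro b hb
      refine h b fun i d hd => hb i d ?_
      simp only [ht]
      cases d
      · have : ¬ P i true := fun h5 => hne i ⟨h5, hd⟩
        simp [this, hd]
      · simp [hd]
    · refine rd_conj_true _ _ ?_
      intro a ha
      obtain ⟨i, _, rfl⟩ := List.mem_map.1 ha
      simp only [lit, ht]
      by_cases h1 : P i true
      · simp [h1, rd]
      · by_cases h2 : P i false
        · simp [h1, h2, rd]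
        · simp [h1, h2, rd]

end Form

namespace Form

theorem isLogic_comp {ι : Type} (F : Form ι) (n : ℕ) : ∀ o ∈ F.comp n, o.IsLogic := by
  induction F generalizing n with
  | tt => simp [comp, Op.IsLogic]
  | ff => simp [comp, Op.IsLogic]
  | var i => simp [comp, Op.IsLogic]
  | not a ih =>
    intro o ho
    simp only [comp, List.mem_append, List.mem_singleton] at ho
    rcases ho with ho | rfl
    · exact ih n o ho
    · trivial
  | and a c iha ihc =>
    intro o ho
    simp only [comp, List.mem_append, List.mem_singleton] at ho
    rcases ho with (ho | ho) | rfl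
    · exact iha n o ho
    · exact ihc _ o ho
    · trivial
  | or a c iha ihc =>
    intro o ho
    simp only [comp, List.mem_append, List.mem_singleton] at ho
    rcases ho with (ho | ho) | rfl
    · exact iha n o ho
    · exact ihc _ o ho
    · trivial

/-- The program of a formula. -/
def prog {ι : Type} (F : Form ι) : Prog ι where
  ops := F.comp 0
  pos := by rw [length_comp]; exact F.size_pos
  below := fun k o h j hj => by
    have := below_comp F 0 k o h j hj
    omega
  params_mem := fun o ho => (isLogic_comp F 0 o ho).params

theorem rd_prog {ι : Type} {ε : ℝ} (x : ι ⊕ ℕ → ℝ) (F : Form ι) (h : F.prog.Sat ε x) (b : Bool)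
    (hb : F.rd (fun i c => Rd ε (x (Sum.inl i)) c) b) : Rd ε (F.prog.res x) b := by
  have h1 := rd_comp x F 0 (fun k o hk => by rw [Nat.zero_add]; exact h k o hk) b hb
  have e : (F.prog).res x = x (Sum.inr (0 + F.size - 1)) := by
    simp [Prog.res, prog]
  rw [e]; exact h1

end Form

section kg

variable {ι : Type} [Fintype ι] [DecidableEq ι]

/-- The universal Kleene program of `f`. -/
noncomputable def kg (f : (ι → Bool) → Bool) : Prog ι := (Form.dnf f).prog

/-- **KG**: if all operations of the program are satisfied, then the last node reads `c` as soon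
as every completion of the digital inputs gives the value `c`. -/
theorem kg_spec {ε : ℝ} (hε : ε < 1 / 2) (f : (ι → Bool) → Bool) (x : ι ⊕ ℕ → ℝ)
    (h : (kg f).Sat ε x) (c : Bool)
    (hc : ∀ b : ι → Bool, (∀ i d, Rd ε (x (Sum.inl i)) d → b i = d) → f b = c) :
    Rd ε ((kg f).res x) c :=
  Form.rd_prog x _ h c (Form.rd_dnf _ f c hc fun i hi => by
      have := Rd.unique hε hi.1 hi.2
      exact absurd this (by simp))

end kg

/-! ### Threshold reader -/

/-- The program comparing its input with the constant `θ`. -/
def thrP (θ : ℚ) (h : 0 ≤ θ ∧ θ ≤ 1) : Prog Unit where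
  ops := [.const θ, .less (Sum.inr 0) (Sum.inl ())]
  pos := by simp
  below := fun k o hk j hj => by
    rcases k with _ | _ | k
    · simp at hk; subst hk; simp [Op.ins] at hj
    · simp at hk; subst hk; simp [Op.ins] at hj; omega
    · simp at hk
  params_mem := fun o ho => by
    simp only [List.mem_cons, List.not_mem_nil, or_false] at ho
    rcases ho with rfl | rfl
    · simpa [Op.params] using h
    · simp [Op.params]

theorem thrP_spec {ε : ℝ} (θ : ℚ) (hθ : 0 ≤ θ ∧ θ ≤ 1) (x : Unit ⊕ ℕ → ℝ)
    (h : (thrP θ hθ).Sat ε x) :
    (θ + 2 * ε < x (Sum.inl ()) → Rd ε ((thrP θ hθ).res x) true) ∧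
      (x (Sum.inl ()) < θ - 2 * ε → Rd ε ((thrP θ hθ).res x) false) := by
  have h0 := h 0 (.const θ) rfl
  have h1 := h 1 (.less (Sum.inr 0) (Sum.inl ())) rfl
  simp only [Op.Sat] at h0 h1
  rw [abs_le] at h0
  have e : (thrP θ hθ).res x = x (Sum.inr 1) := rfl
  rw [e]
  exact ⟨fun h2 => h1.1 (by linarith), fun h2 => h1.2 (by linarith)⟩

/-! ### Affine combinations -/

/-- The operations computing `∑ i, α i * x i` for the list of the terms, from the internal node
`n` on, added to the internal node `n - 1`. -/
def affOps {ι : Type} : List (ℚ × ι) → ℕ → List (Op (ι ⊕ ℕ))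
  | [], _ => []
  | (α, i) :: l, n =>
    .scale α (Sum.inl i) :: .add (Sum.inr (n - 1)) (Sum.inr n) :: affOps l (n + 2)

theorem length_affOps {ι : Type} (l : List (ℚ × ι)) (n : ℕ) :
    (affOps l n).length = 2 * l.length := by
  induction l generalizing n with
  | nil => rfl
  | cons a l ih => simp [affOps, ih]; ring

theorem below_affOps {ι : Type} (l : List (ℚ × ι)) (n : ℕ) (hn : 0 < n) (k : ℕ) (o : Op (ι ⊕ ℕ))
    (h : (affOps l n)[k]? = some o) (j : ℕ) (hj : Sum.inr j ∈ o.ins) : j < n + k := by
  induction l generalizing n k with
  | nil => simp [affOps] at h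
  | cons a l ih =>
    rcases k with _ | _ | k
    · simp [affOps] at h; subst h; simp [Op.ins] at hj
    · simp [affOps] at h; subst h; simp [Op.ins] at hj; omega
    · simp only [affOps, List.getElem?_cons_succ] at h
      have := ih (n + 2) (by omega) k h
      omega

theorem params_affOps {ι : Type} (l : List (ℚ × ι)) (hl : ∀ p ∈ l, 0 ≤ p.1 ∧ p.1 ≤ 1) (n : ℕ) :
    ∀ o ∈ affOps l n, ∀ α ∈ o.params, 0 ≤ α ∧ α ≤ 1 := by
  induction l generalizing n with
  | nil => simp [affOps]
  | cons a l ih =>
    intro o ho
    simp only [affOps, List.mem_cons] at ho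
    rcases ho with rfl | rfl | ho
    · intro α hα
      simp only [Op.params, List.mem_singleton] at hα
      subst hα; exact hl a (by simp)
    · simp [Op.params]
    · exact ih (fun p hp => hl p (by simp [hp])) _ o ho

/-- The program for an affine combination. -/
def aff {ι : Type} (l : List (ℚ × ι)) (hl : ∀ p ∈ l, 0 ≤ p.1 ∧ p.1 ≤ 1) : Prog ι where
  ops := .const 0 :: affOps l 1
  pos := by simp
  below := fun k o hk j hj => by
    rcases k with _ | k
    · simp at hk; subst hk; simp [Op.ins] at hj
    · simp only [List.getElem?_cons_succ] at hk
      have := below_affOps l 1 one_pos k o hk j hj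
      omega
  params_mem := fun o ho => by
    rcases List.mem_cons.1 ho with rfl | ho
    · simp [Op.params]
    · exact params_affOps l hl 1 o ho

theorem affOps_spec {ι : Type} {ε : ℝ} (x : ι ⊕ ℕ → ℝ) (l : List (ℚ × ι))
    (n : ℕ) (s E : ℝ) (hs : |x (Sum.inr n) - s| ≤ E)
    (hx : ∀ p ∈ l, 0 ≤ x (Sum.inl p.2))
    (hl : ∀ p ∈ l, 0 ≤ p.1)
    (h1 : s + (l.map fun p => (p.1 : ℝ) * x (Sum.inl p.2)).sum ≤ 1)
    (h : ∀ (k : ℕ) (o : Op (ι ⊕ ℕ)), (affOps l (n + 1))[k]? = some o →
      o.Sat ε x (x (Sum.inr (n + 1 + k)))) :
    |x (Sum.inr (n + 2 * l.length)) - (s + (l.map fun p => (p.1 : ℝ) * x (Sum.inl p.2)).sum)|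
      ≤ E + 2 * l.length * ε := by
  induction l generalizing n s E with
  | nil => simpa using hs
  | cons p l ih =>
    have g0 := h 0 _ rfl
    have g1 := h 1 _ rfl
    simp only [Op.Sat, Nat.add_zero, Nat.add_sub_cancel] at g0 g1
    have hp : 0 ≤ x (Sum.inl p.2) := hx p (by simp)
    have hp1 : 0 ≤ p.1 := hl p (by simp)
    have hp1' : (0 : ℝ) ≤ p.1 := by exact_mod_cast hp1
    have hsum : 0 ≤ (l.map fun p => (p.1 : ℝ) * x (Sum.inl p.2)).sum := by
      refine List.sum_nonneg ?_
      intro a ha
      obtain ⟨q, hq, rfl⟩ := List.mem_map.1 ha
      have : (0 : ℝ) ≤ q.1 := by exact_mod_cast hl q (by simp [hq])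
      exact mul_nonneg this (hx q (by simp [hq]))
    simp only [List.map_cons, List.sum_cons] at h1 ⊢
    have key : |x (Sum.inr (n + 2)) - (s + p.1 * x (Sum.inl p.2))| ≤ E + 2 * ε := by
      have hle : s + p.1 * x (Sum.inl p.2) ≤ 1 := by linarith
      rw [abs_le] at hs g0
      have g1' := g1
      rw [abs_le] at g1' ⊢
      have e1 : n + 1 + 1 = n + 2 := rfl
      rw [e1] at g1'
      constructor
      · have : s + p.1 * x (Sum.inl p.2) - E - ε ≤
            min (x (Sum.inr n) + x (Sum.inr (n + 1))) 1 := by
          refine le_min (by linarith) ?_
          have hE : 0 ≤ E := by linarith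
          have hε : 0 ≤ ε := by linarith
          linarith
        linarith
      · have := min_le_left (x (Sum.inr n) + x (Sum.inr (n + 1))) 1
        linarith
    have h2 := ih (n + 2) (s + p.1 * x (Sum.inl p.2)) (E + 2 * ε) key
      (fun q hq => hx q (by simp [hq])) (fun q hq => hl q (by simp [hq])) (by linarith)
      (fun k o hk => by
        have := h (k + 2) o (by simpa [affOps] using hk)
        rwa [show n + 1 + (k + 2) = n + 2 + 1 + k by ring] at this)
    rw [show n + 2 * (p :: l).length = n + 2 + 2 * l.length by simp; ring]
    rw [← add_assoc]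
    refine h2.trans (le_of_eq ?_)
    push_cast [List.length_cons]
    ring

theorem aff_spec {ι : Type} {ε : ℝ} (l : List (ℚ × ι)) (hl : ∀ p ∈ l, 0 ≤ p.1 ∧ p.1 ≤ 1)
    (x : ι ⊕ ℕ → ℝ) (hx : ∀ p ∈ l, 0 ≤ x (Sum.inl p.2))
    (h1 : (l.map fun p => (p.1 : ℝ) * x (Sum.inl p.2)).sum ≤ 1) (h : (aff l hl).Sat ε x) :
    |(aff l hl).res x - (l.map fun p => (p.1 : ℝ) * x (Sum.inl p.2)).sum|
      ≤ (2 * l.length + 1) * ε := by
  have h0 := h 0 (.const 0) rfl
  simp only [Op.Sat] at h0
  have h2 := affOps_spec (ε := ε) x l 0 0 ε (by simpa using h0) hx (fun p hp => (hl p hp).1)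
    (by simpa using h1) (fun k o hk => by
      have := h (k + 1) o (by simpa [aff] using hk)
      rwa [show 0 + 1 + k = k + 1 by ring])
  have e : (aff l hl).res x = x (Sum.inr (0 + 2 * l.length)) := by
    simp [Prog.res, aff, length_affOps]
  rw [e]
  rw [zero_add] at h2 ⊢
  rw [zero_add] at h2
  linarith

end Vale.Agent.P330
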