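import Vale.Agent.Lib.PCP.AR.Blr

/-!
# Multilinearity test and cube-sum self-correction

`A i` (`i : ι`, finite) are finite groups of exponent two, `f : (∀ i, A i) → ZMod 2`.  If for every
coordinate `i` the additivity test in the direction `i` fails with probability at most `η`, then
`f` is close to a function `g` which is additive in every coordinate, and for EVERY `x` the cube sum
`∑_T f (z_T)` (`z_T = x + y` on `T`, `z_T = y` off `T`) equals `g x` for most `y`.
-/

set_option linter.unusedSectionVars false

namespace Vale.Agent.P330.MLT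

open Finset PCP.AR

variable {ι : Type*} [Fintype ι] [DecidableEq ι] {A : ι → Type*} [∀ i, AddCommGroup (A i)]
  [∀ i, Fintype (A i)]

/-- the vertex `T` of the cube spanned by `x`, `y` -/
def cp (T : Finset ι) (x y : ∀ i, A i) : ∀ i, A i := fun i => if i ∈ T then x i + y i else y i

/-- the cube sum -/
def cs (f : (∀ i, A i) → ZMod 2) (x y : ∀ i, A i) : ZMod 2 := ∑ T : Finset ι, f (cp T x y)

/-- additive in every coordinate -/
def MultiAdd (g : (∀ i, A i) → ZMod 2) : Prop :=
  ∀ (i : ι) (x : ∀ i, A i) (u v : A i),
    g (Function.update x i (u + v)) = g (Function.update x i u) + g (Function.update x i v)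

/-- failure probability of the additivity test in direction `i` (two full points, only the
coordinate `i` of the second one is used) -/
noncomputable def tf (f : (∀ i, A i) → ZMod 2) (i : ι) : ℝ :=
  pr (fun t : (∀ j, A j) × (∀ j, A j) =>
    f (Function.update t.1 i (t.1 i + t.2 i)) ≠ f t.1 + f (Function.update t.1 i (t.2 i)))

section basic

omit [∀ i, AddCommGroup (A i)] in
/-- coordinatewise measure preserving maps -/
theorem pr_coord (e : ∀ j, A j × A j ≃ A j × A j) (P : (∀ j, A j) → (∀ j, A j) → Prop) :
    pr (fun t : (∀ j, A j) × (∀ j, A j) =>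
      P (fun j => (e j (t.1 j, t.2 j)).1) (fun j => (e j (t.1 j, t.2 j)).2)) =
    pr (fun t : (∀ j, A j) × (∀ j, A j) => P t.1 t.2) := by
  let E : (∀ j, A j) × (∀ j, A j) ≃ (∀ j, A j) × (∀ j, A j) :=
    { toFun := fun t => (fun j => (e j (t.1 j, t.2 j)).1, fun j => (e j (t.1 j, t.2 j)).2)
      invFun := fun t => (fun j => ((e j).symm (t.1 j, t.2 j)).1,
        fun j => ((e j).symm (t.1 j, t.2 j)).2)
      left_inv := by
        intro t
        ext j <;> simp
      right_inv := by
        intro t
        ext j <;> simp }
  exact pr_equiv E (fun t => P t.1 t.2)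

/-- projection to one coordinate is uniform -/
theorem pr_proj [∀ i, Nonempty (A i)] (i : ι) (Q : A i → Prop) :
    pr (fun z : ∀ j, A j => Q (z i)) = pr Q := by
  classical
  have h1 := pr_equiv (Equiv.piSplitAt i A) (fun t : A i × (∀ j : { j // j ≠ i }, A j) => Q t.1)
  have h2 := pr_fst (Ω := A i) (Ω' := ∀ j : { j // j ≠ i }, A j) Q
  rw [← h2, ← h1]
  rfl

omit [∀ i, AddCommGroup (A i)] in
theorem pr_nn {Ω : Type*} [Fintype Ω] (p : Ω → Prop) : 0 ≤ pr p := pr_nonneg p

end basic

/-- the test with a full second point is the test with a second point in `A i` -/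
theorem tf_eq (f : (∀ i, A i) → ZMod 2) (i : ι) :
    tf f i = pr (fun t : (∀ j, A j) × A i =>
      f (Function.update t.1 i (t.1 i + t.2)) ≠ f t.1 + f (Function.update t.1 i t.2)) := by
  unfold tf
  rw [pr_prod, pr_prod]
  congr 1
  refine Finset.sum_congr rfl fun x _ => ?_
  exact pr_proj i (fun u => f (Function.update x i (x i + u)) ≠ f x + f (Function.update x i u))

section cube

/-- splitting the cube sum in direction `i` -/
theorem cs_split (f : (∀ i, A i) → ZMod 2) (i : ι) (x y : ∀ i, A i) :
    cs f x y = ∑ T ∈ (univ.erase i).powerset,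
      (f (cp T x y) + f (Function.update (cp T x y) i (x i + y i))) := by
  unfold cs
  have h0 : (univ : Finset (Finset ι)) = (insert i (univ.erase i)).powerset := by
    rw [Finset.insert_erase (Finset.mem_univ i), Finset.powerset_univ]
  rw [h0, Finset.sum_powerset_insert (Finset.notMem_erase i univ), ← Finset.sum_add_distrib]
  refine Finset.sum_congr rfl fun T hT => ?_
  have hi : i ∉ T := fun h => (Finset.notMem_erase i univ) (Finset.mem_powerset.1 hT h)
  congr 2
  funext j
  by_cases hj : j = i
  · subst hj
    simp [cp]
  · rw [Function.update_of_ne hj]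
    simp [cp, hj]

theorem cp_same (T : Finset ι) (i : ι) (hi : i ∉ T) (x y : ∀ i, A i) : cp T x y i = y i := by
  simp [cp, hi]

theorem cp_update_y (T : Finset ι) (i : ι) (hi : i ∉ T) (x y : ∀ i, A i) (u : A i) :
    cp T x (Function.update y i u) = Function.update (cp T x y) i u := by
  funext j
  by_cases hj : j = i
  · subst hj; simp [cp, hi]
  · simp [cp, Function.update_of_ne hj]

theorem cp_update_x (T : Finset ι) (i : ι) (hi : i ∉ T) (x y : ∀ i, A i) (u : A i) :
    cp T (Function.update x i u) y = cp T x y := by
  funext j
  by_cases hj : j = i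
  · subst hj; simp [cp, hi]
  · simp [cp, Function.update_of_ne hj]

/-- exact identity behind the additivity of the corrected function -/
theorem cs_add (f : (∀ i, A i) → ZMod 2) (i : ι) (x y : ∀ i, A i) (u v : A i) :
    cs f (Function.update x i (u + v)) y =
      cs f (Function.update x i u) y +
        cs f (Function.update x i v) (Function.update y i (u + y i)) := by
  rw [cs_split f i, cs_split f i, cs_split f i, ← Finset.sum_add_distrib]
  refine Finset.sum_congr rfl fun T hT => ?_
  have hi : i ∉ T := fun h => (Finset.notMem_erase i univ) (Finset.mem_powerset.1 hT h)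
  simp only [cp_update_x T i hi, cp_update_y T i hi, Function.update_self,
    Function.update_idem]
  have e : u + v + y i = v + (u + y i) := by abel
  rw [e]
  have s := zmod2_add_self (f (Function.update (cp T x y) i (u + y i)))
  linear_combination (-1 : ZMod 2) * s

end cube

section main

variable (h2 : ∀ i (a : A i), a + a = 0)

include h2

/-- the equivalences used -/
def eAdd (j : ι) (c : A j) (h2 : ∀ i (a : A i), a + a = 0) : A j × A j ≃ A j × A j where
  toFun t := (c + t.1, t.2)
  invFun t := (c + t.1, t.2)
  left_inv := by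
    intro t
    have := h2 j c
    simp only [← add_assoc, this, zero_add]
  right_inv := by
    intro t
    have := h2 j c
    simp only [← add_assoc, this, zero_add]

/-- `(a, b) ↦ (c + a, a + b)` -/
def eShear (j : ι) (c : A j) (h2 : ∀ i (a : A i), a + a = 0) : A j × A j ≃ A j × A j where
  toFun t := (c + t.1, t.1 + t.2)
  invFun t := (c + t.1, (c + t.1) + t.2)
  left_inv := by
    intro t
    have h := h2 j c
    have h' := h2 j t.1
    ext
    · simp only [← add_assoc, h, zero_add]
    · simp only [← add_assoc, h, zero_add, h']
  right_inv := by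
    intro t
    have h := h2 j c
    have h' := h2 j (c + t.1)
    ext
    · simp only [← add_assoc, h, zero_add]
    · simp only
      rw [← add_assoc, h', zero_add]

omit h2 in
/-- transport of the test along coordinatewise bijections -/
theorem tf_transport (f : (∀ i, A i) → ZMod 2) (i : ι) (E : ∀ j, A j × A j ≃ A j × A j)
    (a : (∀ j, A j) × (∀ j, A j) → ∀ j, A j) (b : (∀ j, A j) × (∀ j, A j) → A i)
    (ha : ∀ t, (fun j => (E j (t.1 j, t.2 j)).1) = a t)
    (hb : ∀ t, (E i (t.1 i, t.2 i)).2 = b t) :
    pr (fun t => f (Function.update (a t) i (a t i + b t)) ≠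
      f (a t) + f (Function.update (a t) i (b t))) = tf f i := by
  unfold tf
  rw [← pr_coord E (fun a b => f (Function.update a i (a i + b i)) ≠
    f a + f (Function.update a i (b i)))]
  apply pr_congr
  intro t
  rw [← ha t, ← hb t]

/-- Changing one coordinate of the pad changes the cube sum rarely. -/
theorem one_coord (f : (∀ i, A i) → ZMod 2) (η : ℝ) (hη : ∀ i, tf f i ≤ η) (i : ι)
    (x : ∀ i, A i) :
    pr (fun t : (∀ j, A j) × (∀ j, A j) => cs f x t.1 ≠ cs f x (Function.update t.1 i (t.2 i))) ≤
      2 ^ Fintype.card ι * η := by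
  classical
  have hcardpos : 1 ≤ Fintype.card ι := Fintype.card_pos_iff.2 ⟨i⟩
  -- the two families of tests
  let t1 : Finset ι → (∀ j, A j) × (∀ j, A j) → Prop := fun T t =>
    f (Function.update (cp T x t.1) i (cp T x t.1 i + (t.1 i + t.2 i))) ≠
      f (cp T x t.1) + f (Function.update (cp T x t.1) i (t.1 i + t.2 i))
  let t2 : Finset ι → (∀ j, A j) × (∀ j, A j) → Prop := fun T t =>
    f (Function.update (Function.update (cp T x t.1) i (x i + t.1 i)) i
        ((x i + t.1 i) + (t.1 i + t.2 i))) ≠
      f (Function.update (cp T x t.1) i (x i + t.1 i)) +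
        f (Function.update (Function.update (cp T x t.1) i (x i + t.1 i)) i (t.1 i + t.2 i))
  have h1 : ∀ T ∈ (univ.erase i).powerset, pr (t1 T) ≤ η := by
    intro T hT
    have hi : i ∉ T := fun h => (Finset.notMem_erase i univ) (Finset.mem_powerset.1 hT h)
    refine le_trans (le_of_eq (tf_transport f i
      (fun j => if j = i then eShear j 0 h2 else if j ∈ T then eAdd j (x j) h2 else Equiv.refl _)
      (fun t => cp T x t.1) (fun t => t.1 i + t.2 i) ?_ ?_)) (hη i)
    · intro t
      funext j
      by_cases hj : j = i
      · subst hj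
        simp [eShear, cp, hi]
      · by_cases hjT : j ∈ T
        · simp [hj, hjT, eAdd, cp]
        · simp [hj, hjT, cp]
    · intro t
      simp [eShear]
  have h3 : ∀ T ∈ (univ.erase i).powerset, pr (t2 T) ≤ η := by
    intro T hT
    have hi : i ∉ T := fun h => (Finset.notMem_erase i univ) (Finset.mem_powerset.1 hT h)
    have key := tf_transport f i
      (fun j => if j = i then eShear j (x j) h2 else if j ∈ T then eAdd j (x j) h2
        else Equiv.refl _)
      (fun t => Function.update (cp T x t.1) i (x i + t.1 i)) (fun t => t.1 i + t.2 i) ?_ ?_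
    · refine le_trans (le_of_eq ?_) (hη i)
      rw [← key]
      apply pr_congr
      intro t
      simp only [t2, Function.update_self]
    · intro t
      funext j
      by_cases hj : j = i
      · subst hj
        simp [eShear]
      · by_cases hjT : j ∈ T
        · simp [hj, hjT, eAdd, cp]
        · simp [hj, hjT, cp]
    · intro t
      simp [eShear]
  -- the union bound
  have hu : ∀ (S : Finset (Finset ι)), (∀ T ∈ S, pr (t1 T) ≤ η ∧ pr (t2 T) ≤ η) →
      pr (fun t => ∃ T ∈ S, t1 T t ∨ t2 T t) ≤ S.card * (2 * η) := by
    intro S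
    induction S using Finset.induction_on with
    | empty =>
      intro _
      have : pr (fun t : (∀ j, A j) × (∀ j, A j) => ∃ T ∈ (∅ : Finset (Finset ι)),
          t1 T t ∨ t2 T t) = pr (fun _ : (∀ j, A j) × (∀ j, A j) => False) :=
        pr_congr (by simp)
      rw [this, pr_false]
      simp
    | insert T S hTS ih =>
      intro h
      have hT := h T (Finset.mem_insert_self T S)
      have hS := ih fun T' hT' => h T' (Finset.mem_insert_of_mem hT')
      rw [Finset.card_insert_of_notMem hTS]
      push_cast
      have h5 : pr (fun t => ∃ T' ∈ insert T S, t1 T' t ∨ t2 T' t) ≤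
          pr (fun t => (t1 T t ∨ t2 T t) ∨ ∃ T' ∈ S, t1 T' t ∨ t2 T' t) := by
        apply pr_mono
        rintro t ⟨T', hT', ht⟩
        rcases Finset.mem_insert.1 hT' with rfl | hT'
        · exact Or.inl ht
        · exact Or.inr ⟨T', hT', ht⟩
      have h6 := pr_or (fun t => t1 T t ∨ t2 T t) (fun t => ∃ T' ∈ S, t1 T' t ∨ t2 T' t)
      have h7 := pr_or (t1 T) (t2 T)
      linarith [hT.1, hT.2]
  have hbound := hu ((univ.erase i).powerset) fun T hT => ⟨h1 T hT, h3 T hT⟩
  have hcard : (((univ.erase i).powerset.card : ℕ) : ℝ) * (2 * η) = 2 ^ Fintype.card ι * η := by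
    rw [Finset.card_powerset, Finset.card_erase_of_mem (Finset.mem_univ i), Finset.card_univ]
    obtain ⟨m, hm⟩ : ∃ m, Fintype.card ι = m + 1 := ⟨Fintype.card ι - 1, by omega⟩
    rw [hm]
    push_cast
    rw [pow_succ]
    ring
  rw [hcard] at hbound
  refine le_trans (pr_mono ?_) hbound
  intro t ht
  by_contra hc
  push Not at hc
  apply ht
  rw [cs_split f i, cs_split f i]
  refine Finset.sum_congr rfl fun T hT => ?_
  have hi : i ∉ T := fun h => (Finset.notMem_erase i univ) (Finset.mem_powerset.1 hT h)
  obtain ⟨c1, c2⟩ := hc T hT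
  simp only [t1, t2, not_not] at c1 c2
  rw [cp_update_y T i hi, Function.update_self, Function.update_idem]
  rw [cp_same T i hi] at c1
  rw [Function.update_idem, Function.update_idem] at c2
  have e1 : t.1 i + (t.1 i + t.2 i) = t.2 i := by rw [← add_assoc, h2 i, zero_add]
  have e2 : x i + t.1 i + (t.1 i + t.2 i) = x i + t.2 i := by
    rw [add_assoc, e1]
  rw [e1] at c1
  rw [e2] at c2
  rw [c1, c2]
  have s := zmod2_add_self (f (Function.update (cp T x t.1) i (t.1 i + t.2 i)))
  linear_combination (-1 : ZMod 2) * s

omit h2 in
theorem insert_piecewise (S : Finset ι) (i : ι) (y y' : ∀ j, A j) :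
    (insert i S).piecewise y' y = Function.update (S.piecewise y' y) i (y' i) := by
  rw [Finset.piecewise_insert]

/-- the hybrid argument over the coordinates of the pad -/
theorem hybrid (f : (∀ i, A i) → ZMod 2) (η : ℝ) (hη : ∀ i, tf f i ≤ η) (x : ∀ i, A i)
    (S : Finset ι) :
    pr (fun t : (∀ j, A j) × (∀ j, A j) => cs f x t.1 ≠ cs f x (S.piecewise t.2 t.1)) ≤
      S.card * (2 ^ Fintype.card ι * η) := by
  classical
  induction S using Finset.induction_on with
  | empty =>
    have : pr (fun t : (∀ j, A j) × (∀ j, A j) => cs f x t.1 ≠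
        cs f x ((∅ : Finset ι).piecewise t.2 t.1)) =
        pr (fun _ : (∀ j, A j) × (∀ j, A j) => False) := pr_congr (by simp)
    rw [this, pr_false]
    simp
  | insert i S hi ih =>
    have h1 : pr (fun t : (∀ j, A j) × (∀ j, A j) => cs f x (S.piecewise t.2 t.1) ≠
        cs f x (Function.update (S.piecewise t.2 t.1) i (t.2 i))) ≤
        2 ^ Fintype.card ι * η := by
      refine le_trans (le_of_eq ?_) (one_coord h2 f η hη i x)
      have := pr_coord (A := A)
        (fun j => if j ∈ S then Equiv.prodComm (A j) (A j) else Equiv.refl _)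
        (fun a b => cs f x a ≠ cs f x (Function.update a i (b i)))
      rw [← this]
      apply pr_congr
      intro t
      have e1 : (fun j => ((if j ∈ S then Equiv.prodComm (A j) (A j) else Equiv.refl _)
          (t.1 j, t.2 j)).1) = S.piecewise t.2 t.1 := by
        funext j
        by_cases hj : j ∈ S
        · simp [hj]
        · simp [hj]
      have e2 : ((if i ∈ S then Equiv.prodComm (A i) (A i) else Equiv.refl _)
          (t.1 i, t.2 i)).2 = t.2 i := by
        simp [hi]
      rw [e1]
      dsimp only
      rw [e2]
    rw [Finset.card_insert_of_notMem hi]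
    push_cast
    have h3 : pr (fun t : (∀ j, A j) × (∀ j, A j) => cs f x t.1 ≠
        cs f x ((insert i S).piecewise t.2 t.1)) ≤
        pr (fun t : (∀ j, A j) × (∀ j, A j) => cs f x t.1 ≠ cs f x (S.piecewise t.2 t.1) ∨
          cs f x (S.piecewise t.2 t.1) ≠
            cs f x (Function.update (S.piecewise t.2 t.1) i (t.2 i))) := by
      apply pr_mono
      intro t ht
      rw [insert_piecewise] at ht
      by_contra hc
      push Not at hc
      exact ht (hc.1.trans hc.2)
    have h4 := pr_or (fun t : (∀ j, A j) × (∀ j, A j) => cs f x t.1 ≠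
      cs f x (S.piecewise t.2 t.1)) (fun t => cs f x (S.piecewise t.2 t.1) ≠
            cs f x (Function.update (S.piecewise t.2 t.1) i (t.2 i)))
    linarith

/-- the error parameter of the corrected function -/
noncomputable def rho (ι : Type*) [Fintype ι] (η : ℝ) : ℝ :=
  Fintype.card ι * (2 ^ Fintype.card ι * η)

theorem two_pads (f : (∀ i, A i) → ZMod 2) (η : ℝ) (hη : ∀ i, tf f i ≤ η) (x : ∀ i, A i) :
    pr (fun t : (∀ j, A j) × (∀ j, A j) => cs f x t.1 ≠ cs f x t.2) ≤ rho ι η := by
  have := hybrid h2 f η hη x univ
  simpa [Finset.card_univ, rho] using this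

omit [∀ i, AddCommGroup (A i)] [∀ i, Fintype (A i)] [Fintype ι] [DecidableEq ι] h2 in
/-- two random values agree often: there is a popular value -/
theorem majority {Ω : Type*} [Fintype Ω] [Nonempty Ω] (a : Ω → ZMod 2) (ρ : ℝ)
    (h1 : pr (fun t : Ω × Ω => a t.1 ≠ a t.2) ≤ ρ) : ∃ c : ZMod 2, pr (fun y => a y ≠ c) ≤ ρ := by
  classical
  have hsum : pr (fun y => a y ≠ 0) + pr (fun y => a y ≠ 1) = 1 := by
    have h3 := pr_not (fun y => a y ≠ 0)
    have h4 : pr (fun y => a y ≠ 1) = pr (fun y => ¬ (a y ≠ 0)) := by
      apply pr_congr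
      intro y
      rcases zmod2_cases (a y) with h | h <;> rw [h] <;> simp
    rw [h4, h3]
    ring
  set p0 := pr (fun y => a y ≠ 0) with hp0
  set p1 := pr (fun y => a y ≠ 1) with hp1
  have hprod : p0 * p1 + p1 * p0 ≤ ρ := by
    have e : pr (fun t : Ω × Ω => a t.1 ≠ a t.2) =
        (∑ x : Ω, pr (fun y : Ω => a x ≠ a y)) / Fintype.card Ω := pr_prod _
    have e2 : ∀ x : Ω, pr (fun y : Ω => a x ≠ a y) =
        (if a x ≠ 0 then p1 else 0) + (if a x ≠ 1 then p0 else 0) := by
      intro x
      rcases zmod2_cases (a x) with h | h
      · rw [h]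
        simp only [ne_eq, not_true_eq_false, if_false, zero_add]
        rw [if_pos (by decide)]
        exact pr_congr fun y => ⟨fun h h' => h h'.symm, fun h h' => h h'.symm⟩
      · rw [h]
        simp only [ne_eq, not_true_eq_false, if_false, add_zero]
        rw [if_pos (by decide)]
        exact pr_congr fun y => ⟨fun h h' => h h'.symm, fun h h' => h h'.symm⟩
    rw [e, Finset.sum_congr rfl fun x _ => e2 x, Finset.sum_add_distrib, add_div] at h1
    have e3 : (∑ x : Ω, if a x ≠ 0 then p1 else 0) / (Fintype.card Ω : ℝ) = p0 * p1 := by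
      rw [hp0]
      unfold pr
      rw [div_mul_eq_mul_div, Finset.sum_mul]
      congr 1
      refine Finset.sum_congr rfl fun x _ => ?_
      split_ifs <;> simp
    have e4 : (∑ x : Ω, if a x ≠ 1 then p0 else 0) / (Fintype.card Ω : ℝ) = p1 * p0 := by
      rw [hp1]
      unfold pr
      rw [div_mul_eq_mul_div, Finset.sum_mul]
      congr 1
      refine Finset.sum_congr rfl fun x _ => ?_
      split_ifs <;> simp
    rw [e3, e4] at h1
    exact h1
  have n0 : 0 ≤ p0 := pr_nonneg _
  have n1 : 0 ≤ p1 := pr_nonneg _
  by_cases hh : p0 ≤ 1 / 2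
  · exact ⟨0, by nlinarith⟩
  · push Not at hh
    exact ⟨1, by nlinarith⟩

omit h2 in
/-- the hybrid vertex: `x + y` on `T`, `y` on `S \ T`, `x` off `S` -/
def zp (S T : Finset ι) (x y : ∀ i, A i) : ∀ i, A i :=
  fun i => if i ∈ T then x i + y i else if i ∈ S then y i else x i

omit h2 in
/-- `(a, b) ↦ (a + b, b)` -/
def eSum (j : ι) (h2 : ∀ i (a : A i), a + a = 0) : A j × A j ≃ A j × A j where
  toFun t := (t.1 + t.2, t.2)
  invFun t := (t.1 + t.2, t.2)
  left_inv := by
    intro t
    have := h2 j t.2
    ext
    · simp only [add_assoc, this, add_zero]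
    · rfl
  right_inv := by
    intro t
    have := h2 j t.2
    ext
    · simp only [add_assoc, this, add_zero]
    · rfl

omit h2 in
/-- union bound over a finset -/
theorem pr_union {Ω κ : Type*} [Fintype Ω] [DecidableEq κ] (S : Finset κ) (E : κ → Ω → Prop)
    (c : ℝ) (h : ∀ T ∈ S, pr (E T) ≤ c) : pr (fun t => ∃ T ∈ S, E T t) ≤ S.card * c := by
  classical
  induction S using Finset.induction_on with
  | empty =>
    have : pr (fun t : Ω => ∃ T ∈ (∅ : Finset κ), E T t) = pr (fun _ : Ω => False) :=
      pr_congr (by simp)
    rw [this, pr_false]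
    simp
  | insert T S hTS ih =>
    have hT := h T (Finset.mem_insert_self T S)
    have hS := ih fun T' hT' => h T' (Finset.mem_insert_of_mem hT')
    rw [Finset.card_insert_of_notMem hTS]
    push_cast
    have h5 : pr (fun t => ∃ T' ∈ insert T S, E T' t) ≤
        pr (fun t => E T t ∨ ∃ T' ∈ S, E T' t) := by
      apply pr_mono
      rintro t ⟨T', hT', ht⟩
      rcases Finset.mem_insert.1 hT' with rfl | hT'
      · exact Or.inl ht
      · exact Or.inr ⟨T', hT', ht⟩
    have h6 := pr_or (fun t => E T t) (fun t => ∃ T' ∈ S, E T' t)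
    linarith

/-- `f` agrees with its partial cube sums -/
theorem partial_cube (f : (∀ i, A i) → ZMod 2) (η : ℝ) (hη : ∀ i, tf f i ≤ η)
    (S : Finset ι) :
    pr (fun t : (∀ j, A j) × (∀ j, A j) => f t.1 ≠ ∑ T ∈ S.powerset, f (zp S T t.1 t.2)) ≤
      (2 ^ S.card - 1) * η := by
  classical
  induction S using Finset.induction_on with
  | empty =>
    have : pr (fun t : (∀ j, A j) × (∀ j, A j) => f t.1 ≠
        ∑ T ∈ (∅ : Finset ι).powerset, f (zp ∅ T t.1 t.2)) =
        pr (fun _ : (∀ j, A j) × (∀ j, A j) => False) := by
      apply pr_congr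
      intro t
      simp only [Finset.powerset_empty, Finset.sum_singleton, iff_false, not_not]
      congr 1
    rw [this, pr_false]
    simp
  | insert i S hi ih =>
    -- the tests
    let tt : Finset ι → (∀ j, A j) × (∀ j, A j) → Prop := fun T t =>
      f (Function.update (Function.update (zp S T t.1 t.2) i (t.1 i + t.2 i)) i
          ((t.1 i + t.2 i) + t.2 i)) ≠
        f (Function.update (zp S T t.1 t.2) i (t.1 i + t.2 i)) +
          f (Function.update (Function.update (zp S T t.1 t.2) i (t.1 i + t.2 i)) i (t.2 i))
    have h1 : ∀ T ∈ S.powerset, pr (tt T) ≤ η := by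
      intro T hT
      have hTS := Finset.mem_powerset.1 hT
      have hiT : i ∉ T := fun h => hi (hTS h)
      have key := tf_transport f i
        (fun j => if j = i then eSum j h2 else
          if j ∈ T then eSum j h2
          else if j ∈ S then Equiv.prodComm _ _ else Equiv.refl _)
        (fun t => Function.update (zp S T t.1 t.2) i (t.1 i + t.2 i)) (fun t => t.2 i) ?_ ?_
      · refine le_trans (le_of_eq ?_) (hη i)
        rw [← key]
        apply pr_congr
        intro t
        simp only [tt, Function.update_self]
      · intro t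
        funext j
        by_cases hj : j = i
        · subst hj
          simp [eSum]
        · by_cases hjT : j ∈ T
          · simp [hj, hjT, eSum, zp]
          · by_cases hjS : j ∈ S
            · simp [hj, hjT, hjS, zp]
            · simp [hj, hjT, hjS, zp]
      · intro t
        simp [eSum]
    have h2' := pr_union S.powerset tt η h1
    rw [Finset.card_powerset] at h2'
    have h3 : pr (fun t : (∀ j, A j) × (∀ j, A j) => f t.1 ≠
        ∑ T ∈ (insert i S).powerset, f (zp (insert i S) T t.1 t.2)) ≤
        pr (fun t : (∀ j, A j) × (∀ j, A j) =>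
          (f t.1 ≠ ∑ T ∈ S.powerset, f (zp S T t.1 t.2)) ∨ ∃ T ∈ S.powerset, tt T t) := by
      apply pr_mono
      intro t ht
      by_contra hc
      push Not at hc
      obtain ⟨c1, c2⟩ := hc
      apply ht
      rw [Finset.sum_powerset_insert hi, ← Finset.sum_add_distrib, c1]
      refine Finset.sum_congr rfl fun T hT => ?_
      have hTS := Finset.mem_powerset.1 hT
      have hiT : i ∉ T := fun h => hi (hTS h)
      have c3 := c2 T hT
      simp only [tt, not_not] at c3
      rw [Function.update_idem, Function.update_idem] at c3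
      have e1 : t.1 i + t.2 i + t.2 i = t.1 i := by rw [add_assoc, h2 i, add_zero]
      rw [e1] at c3
      have z1 : Function.update (zp S T t.1 t.2) i (t.1 i) = zp S T t.1 t.2 := by
        have : zp S T t.1 t.2 i = t.1 i := by simp [zp, hiT, hi]
        rw [← this, Function.update_eq_self]
      have z2 : Function.update (zp S T t.1 t.2) i (t.2 i) = zp (insert i S) T t.1 t.2 := by
        funext j
        by_cases hj : j = i
        · subst hj; simp [zp, hiT]
        · rw [Function.update_of_ne hj]; simp [zp, hj]
      have z3 : Function.update (zp S T t.1 t.2) i (t.1 i + t.2 i) =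
          zp (insert i S) (insert i T) t.1 t.2 := by
        funext j
        by_cases hj : j = i
        · subst hj; simp [zp]
        · rw [Function.update_of_ne hj]; simp [zp, hj]
      rw [z1, z2, z3] at c3
      rw [c3, add_comm]
    have h4 := pr_or (fun t : (∀ j, A j) × (∀ j, A j) =>
      (f t.1 ≠ ∑ T ∈ S.powerset, f (zp S T t.1 t.2))) (fun t => ∃ T ∈ S.powerset, tt T t)
    rw [Finset.card_insert_of_notMem hi]
    push_cast at h2'
    have : ((2 : ℝ) ^ (S.card + 1) - 1) * η = (2 ^ S.card - 1) * η + 2 ^ S.card * η := by ring
    rw [this]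
    linarith

/-- `f` agrees with its cube sums -/
theorem full_cube (f : (∀ i, A i) → ZMod 2) (η : ℝ) (hη : ∀ i, tf f i ≤ η) :
    pr (fun t : (∀ j, A j) × (∀ j, A j) => f t.1 ≠ cs f t.1 t.2) ≤
      (2 ^ Fintype.card ι - 1) * η := by
  have := partial_cube h2 f η hη univ
  rw [Finset.card_univ] at this
  refine le_trans (pr_mono ?_) this
  intro t ht
  refine fun h => ht ?_
  rw [h]
  unfold cs
  rw [Finset.powerset_univ]
  refine Finset.sum_congr rfl fun T _ => ?_
  congr 1
  funext j
  simp [cp, zp]

/-- **Multilinearity test and self-correction.** -/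
theorem mlt (f : (∀ i, A i) → ZMod 2) (η : ℝ) (hη0 : 0 ≤ η) (hη : ∀ i, tf f i ≤ η)
    (hs : 3 * rho ι η < 1) :
    ∃ g : (∀ i, A i) → ZMod 2, MultiAdd g ∧ (∀ x, pr (fun y => cs f x y ≠ g x) ≤ rho ι η) ∧
      pr (fun x => f x ≠ g x) ≤ 3 / 2 * (2 ^ Fintype.card ι * η) := by
  classical
  choose g hg using fun x => majority (fun y => cs f x y) (rho ι η) (two_pads h2 f η hη x)
  refine ⟨g, ?_, hg, ?_⟩
  · intro i x u v
    have h3 : pr (fun y : ∀ j, A j =>
        cs f (Function.update x i v) (Function.update y i (u + y i)) ≠
          g (Function.update x i v)) ≤ rho ι η := by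
      have e := pr_translate (A := ∀ j, A j) (Function.update 0 i u)
        (fun y => cs f (Function.update x i v) y ≠ g (Function.update x i v))
      refine le_trans (le_of_eq ?_) (hg (Function.update x i v))
      rw [← e]
      apply pr_congr
      intro y
      have : Function.update (0 : ∀ j, A j) i u + y = Function.update y i (u + y i) := by
        funext j
        by_cases hj : j = i
        · subst hj; simp
        · simp [Function.update_of_ne hj]
      rw [this]
    have hb : pr (fun y => (cs f (Function.update x i (u + v)) y ≠ g (Function.update x i (u + v)))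
        ∨ ((cs f (Function.update x i u) y ≠ g (Function.update x i u)) ∨
          (cs f (Function.update x i v) (Function.update y i (u + y i)) ≠
            g (Function.update x i v)))) < 1 := by
      have := pr_or
        (fun y => cs f (Function.update x i (u + v)) y ≠ g (Function.update x i (u + v)))
        (fun y => (cs f (Function.update x i u) y ≠ g (Function.update x i u)) ∨
          (cs f (Function.update x i v) (Function.update y i (u + y i)) ≠
            g (Function.update x i v)))
      have h5 := pr_or (fun y => cs f (Function.update x i u) y ≠ g (Function.update x i u))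
        (fun y => cs f (Function.update x i v) (Function.update y i (u + y i)) ≠
            g (Function.update x i v))
      have h6 := hg (Function.update x i (u + v))
      have h7 := hg (Function.update x i u)
      linarith
    obtain ⟨y, hy⟩ := exists_of_pr_lt_one hb
    push Not at hy
    obtain ⟨e1, e2, e3⟩ := hy
    rw [← e1, ← e2, ← e3]
    exact cs_add f i x y u v
  · have h4 : pr (fun x => f x ≠ g x) * (1 - rho ι η) ≤ (2 ^ Fintype.card ι - 1) * η := by
      refine (mul_le_pr_prod (fun x => f x ≠ g x)
        (fun t : (∀ j, A j) × (∀ j, A j) => f t.1 ≠ cs f t.1 t.2) (1 - rho ι η) ?_).trans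
        (full_cube h2 f η hη)
      intro x hx
      have h5 : 1 - rho ι η ≤ pr (fun y => ¬ (cs f x y ≠ g x)) := by
        rw [pr_not]
        have := hg x
        linarith
      refine h5.trans (pr_mono ?_)
      intro y hy hc
      push Not at hy
      apply hx
      simp only at hc
      rw [hc, hy]
    have n0 := pr_nonneg (fun x => f x ≠ g x)
    have n1 : (0 : ℝ) ≤ 2 ^ Fintype.card ι * η := by positivity
    nlinarith

omit h2 in
theorem multiAdd_zero {g : (∀ i, A i) → ZMod 2} (hg : MultiAdd g) (i : ι) (x : ∀ i, A i) :
    g (Function.update x i 0) = 0 := by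
  have := hg i x 0 0
  rw [add_zero] at this
  have s := zmod2_add_self (g (Function.update x i 0))
  rw [← this] at s
  exact s

omit h2 in
/-- a nonzero multiadditive map is nonzero with probability at least `2 ^ (-k)` -/
theorem dist_zero {g : (∀ i, A i) → ZMod 2} (hg : MultiAdd g) (x : ∀ i, A i) (hx : g x ≠ 0)
    (S : Finset ι) : (1 / 2 : ℝ) ^ S.card ≤ pr (fun y => g (S.piecewise y x) ≠ 0) := by
  classical
  induction S using Finset.induction_on with
  | empty =>
    have : pr (fun y : ∀ j, A j => g ((∅ : Finset ι).piecewise y x) ≠ 0) =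
        pr (fun _ : ∀ j, A j => True) := pr_congr (by simp [hx])
    rw [this, pr_true]
    simp
  | insert i S hi ih =>
    rw [Finset.card_insert_of_notMem hi, pow_succ]
    have h1 : pr (fun y => g ((insert i S).piecewise y x) ≠ 0) =
        pr (fun t : (∀ j, A j) × (∀ j, A j) =>
          g (Function.update (S.piecewise t.1 x) i (t.2 i)) ≠ 0) := by
      rw [← pr_fst (Ω := ∀ j, A j) (Ω' := ∀ j, A j)
        (fun y => g ((insert i S).piecewise y x) ≠ 0)]
      rw [← pr_coord (A := A)
        (fun j => if j = i then Equiv.prodComm (A j) (A j) else Equiv.refl _)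
        (fun a _ => g ((insert i S).piecewise a x) ≠ 0)]
      apply pr_congr
      intro t
      have e1 : (insert i S).piecewise (fun j => ((if j = i then Equiv.prodComm (A j) (A j)
          else Equiv.refl _) (t.1 j, t.2 j)).1) x =
          Function.update (S.piecewise t.1 x) i (t.2 i) := by
        rw [insert_piecewise]
        funext j
        by_cases hj : j = i
        · subst hj; simp
        · rw [Function.update_of_ne hj, Function.update_of_ne hj]
          by_cases hjS : j ∈ S
          · simp [hjS, hj]
          · simp [hjS]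
      rw [e1]
    rw [h1]
    refine le_trans (mul_le_mul_of_nonneg_right ih (by norm_num)) ?_
    refine mul_le_pr_prod (fun y => g (S.piecewise y x) ≠ 0)
      (fun t : (∀ j, A j) × (∀ j, A j) =>
          g (Function.update (S.piecewise t.1 x) i (t.2 i)) ≠ 0) (1 / 2) ?_
    intro y hy
    have e2 := pr_proj (A := A) i (fun u => g (Function.update (S.piecewise y x) i u) ≠ 0)
    simp only
    rw [e2]
    let ψ : A i →+ ZMod 2 :=
      { toFun := fun u => g (Function.update (S.piecewise y x) i u)
        map_zero' := multiAdd_zero hg i _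
        map_add' := hg i _ }
    have hψ : ψ ≠ 0 := by
      intro h
      apply hy
      have h3 : ψ ((S.piecewise y x) i) = 0 := by rw [h]; rfl
      have h4 : ψ ((S.piecewise y x) i) = g (S.piecewise y x) := by
        show g (Function.update (S.piecewise y x) i ((S.piecewise y x) i)) = _
        rw [Function.update_eq_self]
      rw [← h4, h3]
    exact half_le_pr ψ hψ

omit h2 in
/-- **Distance.** Two different multiadditive maps differ with probability at least `2 ^ (-k)`. -/
theorem dist {g g' : (∀ i, A i) → ZMod 2} (hg : MultiAdd g) (hg' : MultiAdd g') (h : g ≠ g') :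
    (1 / 2 : ℝ) ^ Fintype.card ι ≤ pr (fun y => g y ≠ g' y) := by
  classical
  obtain ⟨x, hx⟩ := Function.ne_iff.1 h
  have hd : MultiAdd (fun y => g y + g' y) := by
    intro i x u v
    simp only
    rw [hg, hg']
    ring
  have hx' : g x + g' x ≠ 0 := by
    intro h0
    apply hx
    have s := zmod2_add_self (g' x)
    linear_combination h0 - s
  have := dist_zero hd x hx' univ
  rw [Finset.card_univ] at this
  refine this.trans (pr_mono ?_)
  intro y hy h0
  apply hy
  simp only [Finset.piecewise_univ]
  rw [h0]
  exact zmod2_add_self _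

/-- the corrected function is unique and determined by any close multiadditive function -/
theorem cs_of_close (f g : (∀ i, A i) → ZMod 2) (hg : MultiAdd g) (δ : ℝ)
    (hδ : pr (fun x => f x ≠ g x) ≤ δ) (x : ∀ i, A i) :
    pr (fun y => cs f x y ≠ g x) ≤ 2 ^ Fintype.card ι * δ := by
  classical
  -- `cs g x y = g x`
  have hcs : ∀ y, cs g x y = g x := by
    intro y
    have key : ∀ S : Finset ι, ∑ T ∈ S.powerset, g (zp S T x y) = g x := by
      intro S
      induction S using Finset.induction_on with
      | empty =>
        simp only [Finset.powerset_empty, Finset.sum_singleton]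
        congr 1
      | insert i S hi ih =>
        rw [Finset.sum_powerset_insert hi, ← Finset.sum_add_distrib, ← ih]
        refine Finset.sum_congr rfl fun T hT => ?_
        have hTS := Finset.mem_powerset.1 hT
        have hiT : i ∉ T := fun h => hi (hTS h)
        have z1 : Function.update (zp S T x y) i (x i) = zp S T x y := by
          have : zp S T x y i = x i := by simp [zp, hiT, hi]
          rw [← this, Function.update_eq_self]
        have z2 : zp (insert i S) T x y = Function.update (zp S T x y) i (y i) := by
          funext j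
          by_cases hj : j = i
          · subst hj; simp [zp, hiT]
          · rw [Function.update_of_ne hj]; simp [zp, hj]
        have z3 : zp (insert i S) (insert i T) x y =
            Function.update (zp S T x y) i (x i + y i) := by
          funext j
          by_cases hj : j = i
          · subst hj; simp [zp]
          · rw [Function.update_of_ne hj]; simp [zp, hj]
        rw [z2, z3, hg i (zp S T x y) (x i) (y i), z1]
        have s := zmod2_add_self (g (Function.update (zp S T x y) i (y i)))
        linear_combination s
    have := key univ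
    rw [← this]
    unfold cs
    rw [Finset.powerset_univ]
    refine Finset.sum_congr rfl fun T _ => ?_
    congr 1
    funext j
    simp [cp, zp]
  have h1 : ∀ T ∈ (univ : Finset (Finset ι)),
      pr (fun y => f (cp T x y) ≠ g (cp T x y)) ≤ δ := by
    intro T _
    have e := pr_translate (A := ∀ j, A j) (fun j => if j ∈ T then x j else 0)
      (fun y => f y ≠ g y)
    refine le_trans (le_of_eq ?_) hδ
    rw [← e]
    apply pr_congr
    intro y
    have : (fun j => if j ∈ T then x j else 0) + y = cp T x y := by
      funext j
      by_cases hj : j ∈ T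
      · simp [cp, hj]
      · simp [cp, hj]
    rw [this]
  have h3 := pr_union univ (fun T y => f (cp T x y) ≠ g (cp T x y)) δ h1
  rw [Finset.card_univ, Fintype.card_finset] at h3
  push_cast at h3
  refine le_trans (pr_mono ?_) h3
  intro y hy
  by_contra hc
  push Not at hc
  apply hy
  rw [← hcs y]
  unfold cs
  exact Finset.sum_congr rfl fun T _ => hc T (Finset.mem_univ T)

end main

end Vale.Agent.P330.MLT
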