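import Vale.Agent.P330.H241.Code
import Vale.Agent.P330.Stmt
import Vale.Agent.Lib.PCP.PT.Fin

/-!
Polynomial time and instances of End-of-Line: typed codes of Boolean gates and circuits,
projections, evaluation of circuits, test of a solution.
-/

namespace Vale.Agent.P330

open Vale.Agent.Lib.PolyTime

variable {A : Set Word} {α β γ : Type*} [Enc α] [Enc β] [Enc γ]

instance : Enc BGate := ⟨bgateW⟩
instance : Enc BoolCircuit := ⟨boolCircuitW⟩

theorem enc_bgate (g : BGate) : enc g = bgateW g := rfl
theorem enc_boolCircuit (C : BoolCircuit) : enc C = boolCircuitW C := rfl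

/-- The contents of a Boolean gate: kind and arguments. -/
def BGate.data : BGate → ℕ × ℕ × ℕ
  | .and i j => (0, i, j)
  | .or i j => (1, i, j)
  | .not i => (2, i, 0)

theorem PT_bdata {f : α → BGate} (hf : PT A f) : PT A (fun a => (f a).data) := by
  have h : PT A BGate.data := ⟨_, FP.id, fun g => by
    show bgateW g = _
    cases g <;> simp only [BGate.data, enc_pair, pr_eq_pairW, enc_nat, bgateW]⟩
  exact h.comp hf

theorem PT_bcirc {f : α → BoolCircuit} (hf : PT A f) :
    PT A (fun a => ((f a).gates, (f a).outs)) := by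
  have h : PT A (fun C : BoolCircuit => (C.gates, C.outs)) := ⟨_, FP.id, fun C => by
    show boolCircuitW C = _
    rw [enc_pair, pr_eq_pairW]
    unfold boolCircuitW
    congr 1
    · exact (encList_eq_listW C.gates).symm
    · exact (encList_eq_listW C.outs).symm⟩
  exact h.comp hf

theorem PT_bgates {f : α → BoolCircuit} (hf : PT A f) : PT A (fun a => (f a).gates) :=
  (PT_bcirc hf).fst

theorem PT_bouts {f : α → BoolCircuit} (hf : PT A f) : PT A (fun a => (f a).outs) :=
  (PT_bcirc hf).snd

theorem PT_mkCirc {f : α → List BGate} {g : α → List ℕ} (hf : PT A f) (hg : PT A g) :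
    PT A (fun a => BoolCircuit.mk (f a) (g a)) := by
  obtain ⟨F, hF, hF'⟩ := PT.pair hf hg
  refine ⟨F, hF, fun a => ?_⟩
  rw [hF', enc_pair, pr_eq_pairW]
  show _ = boolCircuitW _
  unfold boolCircuitW
  congr 1
  · exact encList_eq_listW _
  · exact encList_eq_listW _

theorem PT_eol {f : α → EndOfLine} (hf : PT A f) :
    PT A (fun a => ((f a).n, (f a).S, (f a).P)) := by
  have h : PT A (fun I : EndOfLine => (I.n, I.S, I.P)) := ⟨_, FP.id, fun I => by
    show eolW I = _
    simp only [enc_pair, pr_eq_pairW, enc_nat, enc_boolCircuit, eolW]⟩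
  exact h.comp hf

theorem PT_eolN {f : α → EndOfLine} (hf : PT A f) : PT A (fun a => (f a).n) := (PT_eol hf).fst
theorem PT_eolS {f : α → EndOfLine} (hf : PT A f) : PT A (fun a => (f a).S) := (PT_eol hf).snd.fst
theorem PT_eolP {f : α → EndOfLine} (hf : PT A f) : PT A (fun a => (f a).P) := (PT_eol hf).snd.snd

/-- The number `n` of an instance is at most the length of its code. -/
theorem eol_n_le (I : EndOfLine) : I.n ≤ (eolW I).length := by
  have h1 : I.S.outs.length ≤ esize I.S.outs := length_le_esize _
  have h2 : esize (I.n, I.S, I.P) = (eolW I).length := by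
    show (enc (I.n, I.S, I.P)).length = _
    simp only [enc_pair, pr_eq_pairW, enc_nat, enc_boolCircuit, eolW]
  have h3 : esize I.S = esize (I.S.gates, I.S.outs) := by
    show (boolCircuitW I.S).length = (enc (I.S.gates, I.S.outs)).length
    rw [enc_pair, pr_eq_pairW]
    unfold boolCircuitW
    have e1 : enc I.S.gates = listW bgateW I.S.gates := encList_eq_listW I.S.gates
    have e2 : enc I.S.outs = listW Nat.bits I.S.outs := encList_eq_listW I.S.outs
    rw [e1, e2]
  rw [esize_pair, esize_pair, h3, esize_pair] at h2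
  have h4 := I.circuit_S.1
  omega

theorem PBd_eolN {f : α → EndOfLine} (hf : PT A f) : PBd (fun a => (f a).n) :=
  hf.pbd.mono fun a => eol_n_le (f a)

/-! ### Evaluation -/

theorem BGate.eval_eq (g : BGate) (w : List Bool) : g.eval w =
    if g.data.1 = 0 then (w.getD g.data.2.1 false && w.getD g.data.2.2 false)
    else if g.data.1 = 1 then (w.getD g.data.2.1 false || w.getD g.data.2.2 false)
    else !(w.getD g.data.2.1 false) := by
  cases g <;> simp [BGate.data, BGate.eval]

theorem PT_bgateEval {g : α → BGate} {w : α → List Bool} (hg : PT A g) (hw : PT A w) :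
    PT A (fun a => (g a).eval (w a)) := by
  have hd := PT_bdata hg
  have h1 := PT.getD hw hd.snd.fst (PT.const false)
  have h2 := PT.getD hw hd.snd.snd (PT.const false)
  refine (PT.ite (PT.eqNat hd.fst (PT.const 0)) (h1.and h2)
    (PT.ite (PT.eqNat hd.fst (PT.const 1)) (h1.or h2) h1.not)).congr fun a => ?_
  rw [BGate.eval_eq]

/-- The values of all wires. -/
def BoolCircuit.wires (C : BoolCircuit) (x : List Bool) : List Bool :=
  C.gates.foldl (fun w g => w ++ [g.eval w]) x

theorem foldl_wires_length (gs : List BGate) (x : List Bool) :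
    (gs.foldl (fun w g => w ++ [g.eval w]) x).length = x.length + gs.length := by
  induction gs generalizing x with
  | nil => rfl
  | cons g gs ih =>
    rw [List.foldl_cons, ih, List.length_append]
    simp only [List.length_cons, List.length_nil]
    omega

theorem esize_boolList (w : List Bool) : esize w = 3 * w.length := by
  induction w with
  | nil => rfl
  | cons b w ih =>
    rw [esize_list_cons, ih, List.length_cons, esize_bool]
    ring

theorem PT_wires {C : α → BoolCircuit} {x : α → List Bool} (hC : PT A C) (hx : PT A x) :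
    PT A (fun a => (C a).wires (x a)) := by
  unfold BoolCircuit.wires
  have hB : PBd (fun a => 3 * ((x a).length + (C a).gates.length)) :=
    (PBd.const 3).mul ((PBd.length hx).add (PBd.length (PT_bgates hC)))
  refine PT.foldl (f := fun _ w (g : BGate) => w ++ [g.eval w]) (PT_bgates hC) hx ?_ hB ?_
  · exact PT.append PT.snd'.fst (PT.cons (PT_bgateEval PT.snd'.snd PT.snd'.fst) PT.nil)
  · intro a i
    rw [esize_boolList, foldl_wires_length]
    have : ((C a).gates.take i).length ≤ (C a).gates.length := by
      rw [List.length_take]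
      exact min_le_right _ _
    omega

theorem PT_eval {C : α → BoolCircuit} {x : α → List Bool} (hC : PT A C) (hx : PT A x) :
    PT A (fun a => (C a).eval (x a)) := by
  have h : PT A (fun a => (C a).outs.map fun i => ((C a).wires (x a)).getD i false) :=
    PT.map (f := fun a i => ((C a).wires (x a)).getD i false) (PT_bouts hC)
      (PT.getD ((PT_wires hC hx).comp PT.fst') PT.snd' (PT.const false))
  exact h.congr fun a => rfl

/-! ### Solutions -/

/-- The test of a solution. -/
def EndOfLine.isSol (I : EndOfLine) (v : List Bool) : Bool :=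
  decide (v.length = I.n) && (!decide (v = List.replicate I.n false) &&
    (!decide (I.P.eval (I.S.eval v) = v) || !decide (I.S.eval (I.P.eval v) = v)))

theorem EndOfLine.isSol_iff (I : EndOfLine) (v : List Bool) : I.isSol v = true ↔ I.IsSolution v := by
  simp only [EndOfLine.isSol, EndOfLine.IsSolution, Bool.and_eq_true, Bool.or_eq_true,
    decide_eq_true_eq, Bool.not_eq_true', decide_eq_false_iff_not, ne_eq]

theorem PT_isSol {I : α → EndOfLine} {v : α → List Bool} (hI : PT A I) (hv : PT A v) :
    PT A (fun a => (I a).isSol (v a)) := by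
  have h0 : PT A (fun a => List.replicate (I a).n false) :=
    PT.replicate (PT_eolN hI) (PBd_eolN hI) (PT.const false)
  refine (PT.eqNat hv.length (PT_eolN hI)).and ((PT.eq hv h0).not.and ?_)
  exact (PT.eq (PT_eval (PT_eolP hI) (PT_eval (PT_eolS hI) hv)) hv).not.or
    (PT.eq (PT_eval (PT_eolS hI) (PT_eval (PT_eolP hI) hv)) hv).not

/-! ### Padded instances -/

theorem enc_padded (q : EndOfLine × Un) : enc q = padW (q.1, q.2.v) := by
  rw [enc_pair, pr_eq_pairW]
  rfl

/-- Functions of padded instances: from the typed layer to `PolyTime`. -/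
theorem polyTime_padded {β : Type} [Enc β] {cb : β → List Bool} {f : EndOfLine × ℕ → β}
    (hf : PT ∅ (fun q : EndOfLine × Un => f (q.1, q.2.v))) (hb : ∀ b : β, enc b = cb b) :
    PolyTime padW cb f := by
  obtain ⟨g, h1, h2⟩ := hf
  refine polyTime_iff.2 ⟨g, h1, fun q => ?_⟩
  have := h2 (q.1, Un.mk q.2)
  rw [enc_padded] at this
  rw [this, hb]

theorem enc_paddedAsg (q : (EndOfLine × Un) × List ℚ) :
    enc q = padAsgW ((q.1.1, q.1.2.v), q.2) := by
  rw [enc_pair, pr_eq_pairW, enc_padded, enc_listRat]
  rfl

/-- Decoders of padded instances: from the typed layer to `PolyTime`. -/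
theorem polyTime_paddedAsg {D : (EndOfLine × ℕ) × List ℚ → List Bool}
    (hD : PT ∅ (fun q : (EndOfLine × Un) × List ℚ => D ((q.1.1, q.1.2.v), q.2))) :
    PolyTime padAsgW (fun v => v) D := by
  obtain ⟨g, h1, h2⟩ := PT.rawOfList hD
  refine polyTime_iff.2 ⟨g, h1, fun q => ?_⟩
  have := h2 ((q.1.1, Un.mk q.1.2), q.2)
  rw [enc_paddedAsg] at this
  exact this

end Vale.Agent.P330
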