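import Vale.Agent.P330.MLT

/-!
# Tensors and multiadditive maps

`ev T M = ∑_t T t * ∏_i M_i (t_i)` for a tensor `T : (∀ i, B i) → ZMod 2` and vectors
`M_i : B i → ZMod 2`.  The multiadditive maps on `∏_i (B i → ZMod 2)` are exactly the `ev T`.
-/

set_option linter.unusedSectionVars false

namespace Vale.Agent.P330.MLT

open Finset PCP.AR

variable {ι : Type*} [Fintype ι] [DecidableEq ι] {B : ι → Type*} [∀ i, Fintype (B i)]
  [∀ i, DecidableEq (B i)]

/-- evaluation of a tensor at a tuple of vectors -/
def ev (T : (∀ i, B i) → ZMod 2) (M : ∀ i, B i → ZMod 2) : ZMod 2 :=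
  ∑ t : ∀ i, B i, T t * ∏ i, M i (t i)

theorem ev_multiAdd (T : (∀ i, B i) → ZMod 2) : MultiAdd (A := fun i => B i → ZMod 2) (ev T) := by
  intro i M u v
  unfold ev
  rw [← Finset.sum_add_distrib]
  refine Finset.sum_congr rfl fun t _ => ?_
  rw [← mul_add]
  congr 1
  rw [← Finset.mul_prod_erase univ _ (Finset.mem_univ i),
    ← Finset.mul_prod_erase univ (fun j => Function.update M i u j (t j)) (Finset.mem_univ i),
    ← Finset.mul_prod_erase univ (fun j => Function.update M i v j (t j)) (Finset.mem_univ i)]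
  simp only [Function.update_self, Pi.add_apply]
  rw [add_mul]
  congr 1
  · congr 1
    refine Finset.prod_congr rfl fun j hj => ?_
    rw [Function.update_of_ne (Finset.ne_of_mem_erase hj),
      Function.update_of_ne (Finset.ne_of_mem_erase hj)]
  · congr 1
    refine Finset.prod_congr rfl fun j hj => ?_
    rw [Function.update_of_ne (Finset.ne_of_mem_erase hj),
      Function.update_of_ne (Finset.ne_of_mem_erase hj)]

theorem ev_add (T T' : (∀ i, B i) → ZMod 2) (M : ∀ i, B i → ZMod 2) :
    ev (fun t => T t + T' t) M = ev T M + ev T' M := by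
  unfold ev
  rw [← Finset.sum_add_distrib]
  exact Finset.sum_congr rfl fun t _ => add_mul _ _ _

theorem ev_sum {κ : Type*} (S : Finset κ) (T : κ → (∀ i, B i) → ZMod 2)
    (M : ∀ i, B i → ZMod 2) :
    ev (fun t => ∑ k ∈ S, T k t) M = ∑ k ∈ S, ev (T k) M := by
  unfold ev
  rw [Finset.sum_comm]
  exact Finset.sum_congr rfl fun t _ => Finset.sum_mul _ _ _

theorem ev_mul (c : ZMod 2) (T : (∀ i, B i) → ZMod 2) (M : ∀ i, B i → ZMod 2) :
    ev (fun t => c * T t) M = c * ev T M := by
  unfold ev
  rw [Finset.mul_sum]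
  exact Finset.sum_congr rfl fun t _ => mul_assoc _ _ _

/-- the value at a tuple of basis vectors is an entry of the tensor -/
theorem ev_single (T : (∀ i, B i) → ZMod 2) (t : ∀ i, B i) :
    ev T (fun i => Pi.single (t i) 1) = T t := by
  unfold ev
  rw [Finset.sum_eq_single t]
  · simp
  · intro t' _ ht'
    obtain ⟨i, hi⟩ := Function.ne_iff.1 ht'
    rw [Finset.prod_eq_zero (Finset.mem_univ i), mul_zero]
    show (Pi.single (t i) 1 : B i → ZMod 2) (t' i) = 0
    rw [Pi.single_apply, if_neg hi]
  · intro h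
    exact absurd (Finset.mem_univ t) h

theorem ev_inj {T T' : (∀ i, B i) → ZMod 2} (h : ∀ M, ev T M = ev T' M) : T = T' := by
  funext t
  rw [← ev_single T t, ← ev_single T' t, h]

/-- an additive map on `β → ZMod 2` is given by its values on the basis -/
theorem additive_expand {β : Type*} [Fintype β] [DecidableEq β] (ψ : (β → ZMod 2) → ZMod 2)
    (h0 : ψ 0 = 0) (hadd : ∀ u v, ψ (u + v) = ψ u + ψ v) (u : β → ZMod 2) :
    ψ u = ∑ b, u b * ψ (Pi.single b 1) := by
  let φ : (β → ZMod 2) →+ ZMod 2 := { toFun := ψ, map_zero' := h0, map_add' := hadd }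
  have hu : u = ∑ b, Pi.single b (u b) := by
    funext c
    simp [Finset.sum_apply, Pi.single_apply]
  have h1 : φ u = ∑ b, φ (Pi.single b (u b)) := by
    conv_lhs => rw [hu]
    rw [map_sum]
  have h2 : ∀ b, φ (Pi.single b (u b)) = u b * ψ (Pi.single b 1) := by
    intro b
    rcases zmod2_cases (u b) with h | h
    · rw [h]; simp
    · rw [h, one_mul]; rfl
  show φ u = _
  rw [h1]
  exact Finset.sum_congr rfl fun b _ => h2 b

/-- **Representation.** -/
theorem multiAdd_rep {g : (∀ i, B i → ZMod 2) → ZMod 2}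
    (hg : MultiAdd (A := fun i => B i → ZMod 2) g) (M : ∀ i, B i → ZMod 2) :
    g M = ev (fun t => g (fun i => Pi.single (t i) 1)) M := by
  classical
  -- expand coordinate by coordinate
  have key : ∀ S : Finset ι, ∀ M : ∀ i, B i → ZMod 2,
      (∀ i, i ∉ S → ∃ b, M i = Pi.single b 1) →
      g M = ev (fun t => g (fun i => Pi.single (t i) 1)) M := by
    intro S
    induction S using Finset.induction_on with
    | empty =>
      intro M hM
      choose t ht using fun i => hM i (Finset.notMem_empty i)
      have : M = fun i => Pi.single (t i) 1 := funext ht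
      rw [this, ev_single]
    | insert i S hi ih =>
      intro M hM
      have hE := ev_multiAdd (B := B) (fun t => g (fun i => Pi.single (t i) 1))
      have e1 := additive_expand (fun u => g (Function.update M i u))
        (multiAdd_zero (A := fun i => B i → ZMod 2) hg i M) (hg i M) (M i)
      have e2 := additive_expand
        (fun u => ev (fun t => g (fun i => Pi.single (t i) 1)) (Function.update M i u))
        (multiAdd_zero (A := fun i => B i → ZMod 2) hE i M) (hE i M) (M i)
      simp only [Function.update_eq_self] at e1 e2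
      rw [e1, e2]
      refine Finset.sum_congr rfl fun b _ => ?_
      congr 1
      apply ih
      intro j hj
      by_cases hji : j = i
      · subst hji
        exact ⟨b, by simp⟩
      · rw [Function.update_of_ne hji]
        exact hM j (by simp [hji, hj])
  exact key univ M fun i hi => absurd (Finset.mem_univ i) hi

/-- a nonzero tensor is detected with probability at least `2 ^ (-k)` -/
theorem ev_dist {T T' : (∀ i, B i) → ZMod 2} (h : T ≠ T') :
    (1 / 2 : ℝ) ^ Fintype.card ι ≤
      pr (fun M : ∀ i, B i → ZMod 2 => ev T M ≠ ev T' M) :=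
  dist (A := fun i => B i → ZMod 2) (ev_multiAdd T) (ev_multiAdd T')
    fun h' => h (ev_inj fun M => congrFun h' M)

/-- push-forward of a tuple of vectors along maps of index types -/
def push {Q : ι → Type*} [∀ i, Fintype (Q i)] (φ : ∀ i, Q i → B i) (u : ∀ i, Q i → ZMod 2) :
    ∀ i, B i → ZMod 2 :=
  fun i k => ∑ q, if φ i q = k then u i q else 0

/-- evaluation at a push-forward = evaluation of the pulled back tensor -/
theorem ev_push {Q : ι → Type*} [∀ i, Fintype (Q i)] [∀ i, DecidableEq (Q i)]
    (φ : ∀ i, Q i → B i) (T : (∀ i, B i) → ZMod 2) (u : ∀ i, Q i → ZMod 2) :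
    ev T (push φ u) = ev (fun q => T (fun i => φ i (q i))) u := by
  unfold ev push
  have h1 : ∀ t : ∀ i, B i, (∏ i, ∑ q, if φ i q = t i then u i q else 0) =
      ∑ q : ∀ i, Q i, if (fun i => φ i (q i)) = t then ∏ i, u i (q i) else 0 := by
    intro t
    rw [Finset.prod_univ_sum, Fintype.piFinset_univ]
    refine Finset.sum_congr rfl fun q _ => ?_
    by_cases h : (fun i => φ i (q i)) = t
    · rw [if_pos h]
      refine Finset.prod_congr rfl fun i _ => ?_
      rw [if_pos (congrFun h i)]
    · rw [if_neg h]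
      obtain ⟨i, hi⟩ := Function.ne_iff.1 h
      exact Finset.prod_eq_zero (Finset.mem_univ i) (if_neg hi)
  simp only [h1, Finset.mul_sum, mul_ite, mul_zero]
  rw [Finset.sum_comm]
  refine Finset.sum_congr rfl fun q _ => ?_
  rw [Finset.sum_ite_eq]
  simp

/-- reindexing of the tensor by permutations of the index types -/
theorem ev_equiv {Q : ι → Type*} [∀ i, Fintype (Q i)] [∀ i, DecidableEq (Q i)]
    (φ : ∀ i, Q i ≃ B i) (T : (∀ i, B i) → ZMod 2) (M : ∀ i, B i → ZMod 2) :
    ev (fun q : ∀ i, Q i => T (fun i => φ i (q i))) (fun i k => M i (φ i k)) = ev T M := by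
  unfold ev
  exact (Equiv.piCongrRight φ).sum_comp (fun t => T t * ∏ i, M i (t i))

/-- evaluation at a tensor product of two tuples of vectors -/
theorem ev_prod {P Q : ι → Type*} [∀ i, Fintype (P i)] [∀ i, DecidableEq (P i)]
    [∀ i, Fintype (Q i)] [∀ i, DecidableEq (Q i)] (T : (∀ i, P i × Q i) → ZMod 2)
    (u : ∀ i, P i → ZMod 2) (v : ∀ i, Q i → ZMod 2) :
    ev T (fun i k => u i k.1 * v i k.2) =
      ev (fun p => ev (fun q => T (fun i => (p i, q i))) v) u := by
  unfold ev
  have e : ∀ f : (∀ i, P i × Q i) → ZMod 2,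
      ∑ t, f t = ∑ p : ∀ i, P i, ∑ q : ∀ i, Q i, f (fun i => (p i, q i)) := by
    intro f
    rw [← Fintype.sum_prod_type' (f := fun (p : ∀ i, P i) (q : ∀ i, Q i) =>
      f (fun i => (p i, q i)))]
    exact (Fintype.sum_equiv (Equiv.arrowProdEquivProdArrow ι P Q) _ _ (fun t => rfl))
  rw [e]
  refine Finset.sum_congr rfl fun p _ => ?_
  rw [Finset.sum_mul]
  refine Finset.sum_congr rfl fun q _ => ?_
  rw [Finset.prod_mul_distrib]
  ring

/-- evaluation of a product tensor at a `D`-fold tensor product of tuples of vectors -/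
theorem ev_pow {D : Type*} [Fintype D] [DecidableEq D] {L : ι → Type*} [∀ i, Fintype (L i)]
    [∀ i, DecidableEq (L i)] (T : (D → ∀ i, L i) → ZMod 2) (u : D → ∀ i, L i → ZMod 2) :
    ev (B := fun i => D → L i) (fun t => T (fun d i => t i d)) (fun i k => ∏ d, u d i (k d)) =
      ∑ j : D → ∀ i, L i, T j * ∏ d, ∏ i, u d i (j d i) := by
  unfold ev
  refine Fintype.sum_equiv (Equiv.piComm (fun (i : ι) (_ : D) => L i)) _ _ fun t => ?_
  rw [Finset.prod_comm]
  rfl

/-- tensor powers -/
theorem ev_pow_prod {D : Type*} [Fintype D] [DecidableEq D] {L : ι → Type*} [∀ i, Fintype (L i)]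
    [∀ i, DecidableEq (L i)] (w : D → (∀ i, L i) → ZMod 2) (u : D → ∀ i, L i → ZMod 2) :
    ev (B := fun i => D → L i) (fun t => ∏ d, w d (fun i => t i d))
      (fun i k => ∏ d, u d i (k d)) = ∏ d, ev (w d) (u d) := by
  rw [ev_pow (fun j => ∏ d, w d (j d)) u]
  unfold ev
  rw [Finset.prod_univ_sum, Fintype.piFinset_univ]
  refine Finset.sum_congr rfl fun j _ => ?_
  rw [Finset.prod_mul_distrib]

end Vale.Agent.P330.MLT
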